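import Vale.Agent.P275MO.Props
import Vale.Agent.P275AD.Higgs
import Vale.Agent.P275GC.Ox

/-!
# P275, block HIT: the Hitchin map with a moving pole, definitions and the blocks
-/

set_option linter.unusedSectionVars false

open scoped Topology Matrix.Norms.Operator
open Set Filter Metric Matrix

noncomputable section

namespace Vale.Agent.P275HN

open Vale.Agent.P275GC Vale.Agent.P275MO
open Vale.Agent.P275NA (Fm Cy Mn CvT Sub degS)
open Vale.Agent.P275ST (Base)

variable {C : Type} [TopologicalSpace C] {n : ℕ}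

/-- a sign -/
def sg (b : Bool) : ℝ := if b then 1 else -1

/-- two sequences of sample points in the disc of radius `1 / 2` -/
def sp (b : Bool) (m : ℕ) : ℂ := ((sg b * (1 / 4 + 1 / (m + 5)) : ℝ) : ℂ)

variable (A : At C)

/-- a function of the pole which vanishes near the sample points `sp j.2 m` of the chart `j.1` -/
def cut (j : Fin A.N × Bool) (x : C) : ℝ :=
  max (1 / 4 - sg j.2 * A.ext j.1 (fun w => bp w * w.re) x) 0

/-- the number of sample points -/
def ns (n : ℕ) : ℕ := ⌈n * (|A.deg A.d| + 1)⌉₊ + 1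

/-- sample point and number of the coefficient -/
abbrev Ix (n : ℕ) : Type := Fin (ns A n) × Fin n

/-- the space of samples -/
abbrev Vs (n : ℕ) : Type := Fin A.N × Bool → Ix A n → ℂ

/-- the coefficients of the characteristic polynomial at the sample points -/
def ev (a : Fm A (Mn n)) (j : Fin A.N × Bool) : Ix A n → ℂ :=
  fun q => (a j.1 (sp j.2 q.1)).charpoly.coeff q.2

/-- the samples of an object -/
def hD (z : Dat C A.N n) : Vs A n := fun j => (cut A j z.x : ℂ) • ev A z.a j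

/-- the base: pole, invariant of the residue, samples -/
abbrev Sb (n m : ℕ) : Type := C × (Fin m → ℂ) × Vs A n

/-- the action of the scalars on the samples -/
def sV (s : ℂ) (v : Vs A n) : Vs A n := fun j q => s ^ (n - q.2) * v j q

/-- the action of the scalars on the base -/
def sS {m : ℕ} (s : ℂ) (y : Sb A n m) : Sb A n m := (y.1, s • y.2.1, sV A s y.2.2)

variable {A}

theorem sg_sq (b : Bool) : sg b * sg b = 1 := by cases b <;> simp [sg]

theorem sp_pos (m : ℕ) : (0 : ℝ) < 1 / (m + 5) ∧ (1 : ℝ) / (m + 5) ≤ 1 / 5 :=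
  ⟨by positivity, one_div_le_one_div_of_le (by norm_num) (by simp)⟩

theorem norm_sp (b : Bool) (m : ℕ) : ‖sp b m‖ < 1 / 2 := by
  obtain ⟨p, q⟩ := sp_pos m
  have : |sg b| = 1 := by cases b <;> simp [sg]
  rw [sp, Complex.norm_real, Real.norm_eq_abs, abs_mul, this, abs_of_pos (by linarith)]
  linarith

theorem sp_ball (A : At C) (b : Bool) (m : ℕ) : sp b m ∈ ball (0 : ℂ) A.R :=
  At.mem_of_le (by linarith [norm_sp b m])

theorem lt_cut (j : Fin A.N × Bool) (m : ℕ) :
    1 / 4 < sg j.2 * A.ext j.1 (fun w => bp w * w.re) ((A.e j.1).symm (sp j.2 m)) := by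
  rw [At.ext_symm (sp_ball A _ _), bp.one_of_mem_closedBall
    (mem_closedBall_zero_iff.2 (norm_sp _ _).le), one_mul, sp, Complex.ofReal_re, ← mul_assoc,
    sg_sq]
  linarith [(sp_pos m).1]

theorem cut_sp (j : Fin A.N × Bool) (m : ℕ) : cut A j ((A.e j.1).symm (sp j.2 m)) = 0 :=
  max_eq_right (by linarith [lt_cut j m])

theorem sp_off {j : Fin A.N × Bool} {x : C} (h : cut A j x ≠ 0) (m : ℕ) {r : ℝ} (h1 : 1 < r)
    (h2 : r ≤ A.R) : sp j.2 m ∈ off (A.res r h1 h2) x j.1 :=
  ⟨sp_ball (A.res r h1 h2) _ _, fun e => h (e ▸ cut_sp j m)⟩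

variable {l : Cy A ℂ} {τ : Ty n}

theorem hD_iso {H : Subalgebra ℂ (Mn n)} {z z' : Dat C A.N n} (h : Iso A H z z') (h0 : z.lam = 0) :
    hD A z = hD A z' := by
  obtain ⟨r, h1, h2, φ, _, -, h⟩ := h
  funext j q
  have ex : z'.x = z.x := h.x
  by_cases c : cut A j z.x = 0
  · simp [hD, ex, c]
  · have o := sp_off c q.1 h1 h2
    have e := h.con j.1 _ o
    rw [show z.lam • deriv (φ j.1) (sp j.2 q.1) = 0 by rw [h0, zero_smul], zero_add] at e
    exact congrArg₂ (fun (x : C) (p : Polynomial ℂ) => (cut A j x : ℂ) * p.coeff q.2) ex.symm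
      (P275AD.cp_conj (h.det j.1 _ o.1) e.symm)

open Classical in
/-- the samples of a point of the moduli space (zero for `λ ≠ 0`) -/
def hV : Mod A l τ → Vs A n := Quot.lift (fun z => if z.1.lam = 0 then hD A z.1 else 0)
  fun z z' h => by
    have e : z'.1.lam = z.1.lam := by obtain ⟨_, _, _, _, _, -, h⟩ := h; exact h.lam
    by_cases c : z.1.lam = 0
    · rw [if_pos c, if_pos (e.trans c), hD_iso h c]
    · rw [if_neg c, if_neg (e ▸ c)]

theorem hV_pt {z : Ob A l τ} (h : z.1.lam = 0) : hV z.pt = hD A z.1 := if_pos h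

/-- the Hitchin map to the big base -/
def hY (y : Mod A l τ) : Sb A n τ.m := (y.x, y.η, hV y)

variable (A l τ)

/-- the moduli space of twisted Higgs bundles -/
abbrev M0 : Type := {y : Mod A l τ // y.lam = 0}

/-- the nilpotent cone -/
def Nil : Set (Mod A l τ) := {y | y.lam = 0 ∧ y.η = 0 ∧ hV y = 0}

/-- frames modulo the units of `H` form a compact space -/
def CoC (H : Subalgebra ℂ (Mn n)) : Prop := ∃ K : Set (Mn n), IsCompact K ∧
  (∀ U ∈ K, U.det ≠ 0) ∧ ∀ σ : Mn n, σ.det ≠ 0 → ∃ U ∈ K, ∃ h ∈ H, σ = U * h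

/-- the cocycle of `K(y)`, for `y` near `x` -/
def kx (x y : C) : Cy A ℂ := fun i j z => A.d i j z * A.ox x y i j z

/-- weights for the twists `K(y)`, along a convergent sequence of points -/
def TWX : Prop := ∀ (xs : ℕ → C) (x : C) (r : ℝ) (h1 : 1 < r) (h2 : r < A.R),
  Tendsto xs atTop (𝓝 x) → ∃ (k₀ : ℕ) (ws : ℕ → Fm A ℝ) (w : Fm A ℝ),
    (∀ k, A.Nr x r (xs (k + k₀))) ∧
    CvT (A.res r h1 h2.le) (fun k => kx A x (xs (k + k₀))) ws (kx A x x) w

variable (n)

/-- every object lives on the discs of any radius -/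
def EXT : Prop := ∀ (z : Dat C A.N n) (r₀ r : ℝ) (a1 : 1 < r₀) (a2 : r₀ ≤ A.R) (h1 : 1 < r)
  (h2 : r < A.R), Good (A.res r₀ a1 a2) l z → Stab (A.res r₀ a1 a2) l z →
  ∃ z', Good (A.res r h1 h2.le) l z' ∧ Stab (A.res r h1 h2.le) l z' ∧ z'.R = z.R ∧
    ∃ (s : ℝ) (b1 : 1 < s) (b2 : s ≤ A.R) (φ : Fm A (Mn n)), IsoBy (A.res s b1 b2) z z' φ 1

/-- degrees of subbundles are integers -/
def DINT : Prop := ∀ (g : Cy A (Mn n)) (k : ℕ) (S : Fm A (Submodule ℂ (Fin n → ℂ))), A.Cc g →
  Sub A g k S → ∃ m : ℤ, degS A g k S = m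

/-- the invariant of the residue is well defined and continuous -/
def ETA : Prop := ∀ τ : Ty n, (∀ z : Ob A l τ, z.pt.η = τ.η z.1.R) ∧
  Continuous (Mod.η : Mod A l τ → _)

section base

variable [ChartedSpace ℂ C] {n}

/-- the samples of a point of the Hitchin base -/
def evB (j : Fin A.N × Bool) : Base C n →ₗ[ℂ] Ix A n → ℂ where
  toFun b q := ∑ k : Fin (n - 1), if (q.2 : ℕ) + (k + 2) = n then
    P275AD.cf A (k + 2) (b k) j.1 (sp j.2 q.1) else 0
  map_add' b b' := funext fun q => by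
    rw [Pi.add_apply, ← Finset.sum_add_distrib]
    refine Finset.sum_congr rfl fun k _ => ?_
    split_ifs <;> simp [P275AD.cf, mul_add]
  map_smul' c b := funext fun q => by
    rw [Pi.smul_apply, Finset.smul_sum]
    refine Finset.sum_congr rfl fun k _ => ?_
    split_ifs <;> simp [P275AD.cf, mul_left_comm]

/-- the embedding of the curve times the Hitchin base -/
def emb (m : ℕ) (p : C × Base C n) : Sb A n m := (p.1, 0, fun j => (cut A j p.1 : ℂ) • evB A j p.2)

open Classical in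
/-- a left inverse of the sampling -/
def lv (j : Fin A.N × Bool) : (Ix A n → ℂ) →ₗ[ℂ] Base C n :=
  if h : ∃ L : (Ix A n → ℂ) →ₗ[ℂ] Base C n, ∀ b, L (evB A j b) = b then h.choose else 0

/-- the retraction of the big base to the Hitchin base -/
def ret {m : ℕ} (y : Sb A n m) : Base C n :=
  ((∑ j, cut A j y.1 : ℝ) : ℂ)⁻¹ • ∑ j, lv A j (y.2.2 j)

variable {A l τ}

/-- the Hitchin map -/
def hB (y : Mod A l τ) : Base C n := ret A (hY y)

/-- the action of the scalars on the Hitchin base -/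
def sB (s : ℂ) (b : Base C n) : Base C n := fun k => s ^ ((k : ℕ) + 2) • b k

end base

end Vale.Agent.P275HN
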