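import Vale.Agent.P275HN.Core
import Vale.Agent.P275HW.Twx
import Vale.Agent.P275RE.Main
import Vale.Agent.P275MB.Nice
import Vale.Agent.P275HB.Hit

/-!
# P275, block HIT: the Hitchin map is proper
-/

set_option linter.all false

open scoped Topology Matrix.Norms.Operator ContDiff
open Set Filter Metric Matrix

noncomputable section

namespace Vale.Agent.P275HN

open Vale.Agent.P275GC Vale.Agent.P275GC.At Vale.Agent.P275MO Vale.Agent.P275MB
open Vale.Agent.P275NA hiding Stab Hom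
open Vale.Agent.P275Z (tauX bor)

variable {C : Type} [TopologicalSpace C] {n : ℕ} {A : At C} {l : Cy A ℂ} {τ : Ty n} {d : ℤ}

/-- the sample points -/
def smp (A : At C) (n : ℕ) (b : Bool) : Finset ℂ :=
  Finset.univ.image fun m : Fin (ns A n) => sp b m

theorem card_smp (b : Bool) : n * (|A.deg A.d| + 1) < (smp A n b).card := by
  rw [smp, Finset.card_image_of_injective _ (f := fun m : Fin (ns A n) => sp b m)
    ((P275HB.sp_inj b).comp Fin.val_injective), Finset.card_fin, ns]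
  push_cast
  exact (Nat.le_ceil _).trans_lt (lt_add_one _)

theorem smp_bd [T2Space C] {zs : ℕ → Dat C A.N n} {x : C} {j : Fin A.N × Bool} {M : ℝ}
    (tz : Tendsto (fun k => (zs k).x) atTop (𝓝 x)) (hb : cut A j x ≠ 0)
    (hM : ∀ a, ‖hD A (zs a)‖ ≤ M) (m : Fin (ns A n)) (q : Fin n) :
    ∃ M, ∀ᶠ a in atTop, ‖((zs a).a j.1 (sp j.2 m)).charpoly.coeff q‖ ≤ M := by
  have c0 : 0 < cut A j x := (cut_nonneg _ _).lt_of_ne hb.symm
  refine ⟨M / (cut A j x / 2), ?_⟩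
  filter_upwards [((cont_cut j).tendsto x).comp tz |>.eventually
    (lt_mem_nhds (half_lt_self c0))] with a ha
  have e := ((norm_le_pi_norm (hD A (zs a) j) (m, q)).trans (norm_le_pi_norm _ j)).trans (hM a)
  change ‖(cut A j (zs a).x : ℂ) * ((zs a).a j.1 (sp j.2 m)).charpoly.coeff q‖ ≤ M at e
  rw [norm_mul, Complex.norm_real, Real.norm_of_nonneg (cut_nonneg _ _)] at e
  rw [le_div_iff₀' (half_pos c0)]
  exact (mul_le_mul_of_nonneg_right ha.le (norm_nonneg _)).trans e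

theorem tw_res {r : ℝ} {h1 : 1 < r} {h2 : r ≤ A.R} (s : Fm A ℂ) (z : Dat C A.N n) :
    tw (A.res r h1 h2) s z = tw A s z := rfl

theorem mid [T2Space C] [ConnectedSpace C] {zs : ℕ → Dat C A.N n} {x : C} {j : Fin A.N}
    {ws : ℕ → Fm A ℝ} {w : Fm A ℝ} {M r : ℝ} {ss : ℕ → Fm A ℂ} {ks : ℕ → Cy A ℂ} {s : Fm A ℂ}
    {k : Cy A ℂ} (hn : 0 < n) (dl : A.deg l = d) (cop : IsCoprime (n : ℤ) d) (hH : CoC τ.H)
    (G : ∀ a, Good A l (zs a)) (st : ∀ a, Stab A l (zs a)) (z0 : ∀ a, (zs a).lam = 0)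
    (hq : ∀ a, (zs a).R ∈ τ.q) (P : ∀ a, Pl A (zs a).x (ss a) (ks a)) (P' : Pl A x s k)
    (cs : ∀ i w, Cq (fun a => ss a i) w (s i w)) (tz : Tendsto (fun k => (zs k).x) atTop (𝓝 x))
    (hk : ∀ a, (zs a).x ∈ (A.e j).source ∧ ‖A.e j (zs a).x‖ < 1) (hj : x ∈ (A.e j).source)
    (hj' : ‖A.e j x‖ < 1) (T : CvT A ks ws k w) (M0 : 0 ≤ M)
    (hM : ∀ a i, ∀ w ∈ ball (0 : ℂ) 1, ∀ q, ‖(tw A (ss a) (zs a) i w).charpoly.coeff q‖ ≤ M)
    (h1 : 1 < r) (h2 : r < A.R) :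
    ∃ (σ : ℕ → ℕ) (F : OnePoint ℕ → Dat C A.N n), StrictMono σ ∧
      FamOn (A.res r h1 h2.le) l F univ ∧
      (∀ t, Stab (A.res r h1 h2.le) l (F t) ∧ (F t).R ∈ τ.q ∧ (F t).lam = 0) ∧
      ∀ a : ℕ, Iso A τ.H (zs (σ a)) (F a) := by
  obtain ⟨σ₂, Φ, hs, g, θ, h, c, s2, H, m, E, L⟩ := he_lim hn G st z0 P T M0 hM h1 h2
  simp only [← tw_res (h1 := h1) (h2 := h2.le)] at L
  obtain ⟨σ₃, F, s3, f, f', I⟩ := fam_lim (B := A.res r h1 h2.le) (τ := τ)
    (zs := fun a => zs (σ₂ a)) (ss := fun a => ss (σ₂ a)) (ks := fun a => ks (σ₂ a)) (j := j) hn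
    ((res_deg l).trans dl) cop hH (fun a => Good.res (G _)) (fun a => (stab_res (G _)).2 (st _))
    (fun a => z0 _) (fun a => hq _) (fun a => (P _).res h1 h2.le) (P'.res h1 h2.le)
    (fun i w _ => (cs i w).sub' s2) (tz.comp s2.tendsto_atTop)
    (fun a => ⟨(hk _).1, unit_r h1 (hk _).2⟩) ⟨hj, unit_r h1 hj'⟩ T.lim.res H m E L
  refine ⟨σ₂ ∘ σ₃, F, s2.comp s3, f, f', fun a => ?_⟩
  obtain ⟨φ, c, hc, i⟩ := I a
  exact ⟨r, h1, h2.le, φ, c, hc, i⟩

theorem core (hS : Std A l n d) (hH : CoC τ.H) {r : ℝ} {h1 : 1 < r} {h2 : r ≤ A.R}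
    {zs : ℕ → Dat C A.N n} {x : C} {j : Fin A.N} {ws : ℕ → Fm A ℝ} {w : Fm A ℝ} {M : ℝ}
    (G : ∀ a, Good (A.res r h1 h2) l (zs a)) (st : ∀ a, Stab (A.res r h1 h2) l (zs a))
    (z0 : ∀ a, (zs a).lam = 0) (hq : ∀ a, (zs a).R ∈ τ.q)
    (tz : Tendsto (fun k => (zs k).x) atTop (𝓝 x))
    (hk : ∀ a, (zs a).x ∈ (A.e j).source ∧ ‖A.e j (zs a).x‖ < 1) (hj : x ∈ (A.e j).source)
    (hj' : ‖A.e j x‖ < 1) (N : ∀ a, A.Nr x r (zs a).x)
    (T : CvT (A.res r h1 h2) (fun k => kx A x (zs k).x) ws (kx A x x) w)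
    (hM : ∀ a, ‖hD A (zs a)‖ ≤ M) :
    ∃ (σ : ℕ → ℕ) (F : OnePoint ℕ → Dat C A.N n) (r' : ℝ) (a1 : 1 < r') (a2 : r' ≤ A.R),
      StrictMono σ ∧ FamOn (A.res r' a1 a2) l F univ ∧
      (∀ t, Stab (A.res r' a1 a2) l (F t) ∧ (F t).R ∈ τ.q ∧ (F t).lam = 0) ∧
      ∀ a : ℕ, Iso A τ.H (zs (σ a)) (F a) := by
  haveI := hS.t2
  haveI := hS.conn
  have hn : 0 < n := two_pos.trans_le hS.two
  obtain ⟨r', h1', h2'⟩ := exists_between h1
  obtain ⟨b, hb⟩ := ex_cut j x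
  have P := fun k => pl_nr (N k) h1 h2
  have P' := pl_nr (nr_self (A := A) x h2) h1 h2
  have cs : ∀ i w, Cq (fun a => A.sg x (zs a).x i) w (A.sg x x i w) := fun i w =>
    (cont_sg (Y := id) (t := x) continuousAt_id id w).tendsto.comp
      ((tz.comp tendsto_fst).prodMk_nhds tendsto_snd)
  obtain ⟨M', M0, hM'⟩ := cp_bd (B := A.res r h1 h2) G z0 P P' T.cl (fun i w _ => cs i w) tz j
    (smp A n b) (fun w hw => by
      obtain ⟨m, -, rfl⟩ := Finset.mem_image.1 hw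
      exact ⟨sp_off (j := (j, b)) hb m h1 h2, fun q hq => smp_bd tz hb hM m ⟨q, hq⟩⟩)
    (by rw [show (A.res r h1 h2).deg (A.res r h1 h2).d = A.deg A.d from res_deg A.d]
        exact card_smp b)
  obtain ⟨σ, F, s2, f, f', I⟩ := mid (A := A.res r h1 h2) (j := j) hn ((res_deg l).trans hS.deg)
    hS.cop hH G st z0 hq P P' cs tz (fun a => ⟨⟨(hk _).1, unit_r h1 (hk _).2⟩, (hk _).2⟩)
    ⟨hj, unit_r h1 hj'⟩ hj' T M0 hM' h1' h2'
  exact ⟨σ, F, r', h1', h2'.le.trans h2, s2,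
    (rr (A := A) (h1 := h1) (h2 := h2) h1' h2'.le fun E => FamOn (E.at h1') l F univ).1 f,
    fun t => ⟨(rr (A := A) (h1 := h1) (h2 := h2) h1' h2'.le fun E => Stab (E.at h1') l (F t)).1
      (f' t).1, (f' t).2⟩, fun a => (iso_res (h1 := h1) (h2 := h2)).1 (I a)⟩

/-- **bounded samples give a convergent subsequence** -/
theorem seq (hS : Std A l n d) (hH : CoC τ.H) (y : ℕ → Mod A l τ) (h0 : ∀ k, (y k).lam = 0)
    {M : ℝ} (hM : ∀ k, ‖hV (y k)‖ ≤ M) :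
    ∃ y₀ : Mod A l τ, y₀.lam = 0 ∧ ∃ σ : ℕ → ℕ, StrictMono σ ∧ Tendsto (y ∘ σ) atTop (𝓝 y₀) := by
  haveI := hS.t2
  haveI := hS.cpt
  haveI := sc_curve A
  obtain ⟨r, h1, h2⟩ := exists_between A.hR
  choose z ez G using fun k => P275RE.rep hS τ (y k) r h1 h2
  have z0 : ∀ k, (z k).1.lam = 0 := fun k => by rw [← lam_pt, ez, h0]
  obtain ⟨x, σ₁, s1, tx⟩ := CompactSpace.tendsto_subseq fun k => (z k).1.x
  obtain ⟨j, hj, hj'⟩ := A.cov x
  obtain ⟨k₁, hk⟩ := eventually_atTop.1 ((tx.eventually ((A.e j).open_source.mem_nhds hj)).and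
    ((((A.e j).continuousAt hj).tendsto.comp tx).norm.eventually (gt_mem_nhds hj')))
  obtain ⟨k₀, ws, w, N, T⟩ := P275HW.twx A (fun k => (z (σ₁ (k + k₁))).1.x) x r h1 h2
    (tx.comp (tendsto_add_atTop_nat k₁))
  have sζ : StrictMono fun k => k + k₀ + k₁ := fun a b h => by beta_reduce; omega
  obtain ⟨σ, F, r', a1, a2, s2, f, f', I⟩ := core hS hH (zs := fun k => (z (σ₁ (k + k₀ + k₁))).1)
    (fun a => G _) (fun a => IsOb.stab (z _).2 (G _)) (fun a => z0 _) (fun a => (z _).2.2)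
    (tx.comp sζ.tendsto_atTop) (fun a => hk _ (Nat.le_add_left _ _)) hj hj' N T (M := M)
    fun a => by rw [← hV_pt (z0 _), ez]; exact hM _
  let o : OnePoint ℕ → Ob A l τ := fun t =>
    ⟨F t, ⟨r', a1, a2, f.good t trivial, (f' t).1⟩, (f' t).2.1⟩
  have co : Continuous fun t => (o t).pt := continuous_iff_continuousAt.2 fun t =>
    FamAt.continuousAt ⟨r', a1, a2, univ, univ_mem, f⟩
  exact ⟨(o .infty).pt, (f' _).2.2, fun a => σ₁ (σ a + k₀ + k₁), s1.comp (sζ.comp s2),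
    ((OnePoint.continuous_iff_from_nat _).1 co).congr fun a =>
      ((ez _).symm.trans (pt_eq_iff.2 (I a))).symm⟩

/-- closed sets of Higgs bundles with bounded samples are compact -/
theorem cpt_of (hS : Std A l n d) (hH : CoC τ.H) {K : Set (Mod A l τ)} (hK : IsClosed K)
    (h0 : ∀ y ∈ K, y.lam = 0) {M : ℝ} (hM : ∀ y ∈ K, ‖hV y‖ ≤ M) : IsCompact K := by
  haveI := hS.t2
  haveI : LindelofSpace (Mod A l τ) := lindelof_mod
  refine hK.isLindelof.isCompact (IsSeqCompact.isCountablyCompact fun y hy => ?_)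
  obtain ⟨y₀, -, σ, a, b⟩ := seq hS hH y (fun k => h0 _ (hy k)) fun k => hM _ (hy k)
  exact ⟨y₀, hK.mem_of_tendsto b (.of_forall fun k => hy _), σ, a, b⟩

theorem closed_M0 : IsClosed {y : Mod A l τ | y.lam = 0} := isClosed_eq cont_lam continuous_const

/-- **the Hitchin map is proper** -/
theorem proper (hS : Std A l n d) (hH : CoC τ.H) : IsProperMap fun y : M0 A l τ => hY y.1 := by
  haveI := hS.t2
  haveI := hS.cpt
  refine isProperMap_iff_isCompact_preimage.2 ⟨cont_hY, fun K hK => ?_⟩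
  obtain ⟨M, hM⟩ := (hK.image (continuous_snd.comp continuous_snd)).isBounded.exists_norm_le
  refine Subtype.isCompact_iff.2 (cpt_of hS hH (closed_M0.isClosedMap_subtype_val _
    (hK.isClosed.preimage cont_hY)) ?_ (M := M) ?_)
  · rintro _ ⟨y, -, rfl⟩
    exact y.2
  · rintro _ ⟨y, a, rfl⟩
    exact hM _ ⟨_, a, rfl⟩

theorem closed_Nil [T2Space C] : IsClosed (Nil A l τ) := by
  have := (closed_M0 (A := A) (l := l) (τ := τ)).isClosedMap_subtype_val _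
    ((isClosed_eq (cont_η.comp continuous_subtype_val) (continuous_const (y := 0))).inter
      (isClosed_eq cont_hV (continuous_const (y := 0))))
  refine (congrArg IsClosed (Set.ext fun y => ⟨?_, fun a => ?_⟩)).mp this
  · rintro ⟨z, a, rfl⟩
    exact ⟨z.2, a⟩
  · exact ⟨⟨y, a.1⟩, a.2, rfl⟩

/-- **the nilpotent cone is compact** -/
theorem cpt_Nil (hS : Std A l n d) (hH : CoC τ.H) : IsCompact (Nil A l τ) :=
  haveI := hS.t2
  cpt_of hS hH closed_Nil (fun _ a => a.1) (M := 0) fun _ a => by rw [a.2.2, norm_zero]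

end Vale.Agent.P275HN
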