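import Vale.Agent.P275GC.Ox
import Vale.Agent.P275NA.Tr
import Vale.Agent.P275KR.Main

/-!
# P275, block HIT: zeros and limits of sections of line bundles
-/

set_option linter.unusedSectionVars false

open scoped Topology
open Set Filter Metric

noncomputable section

namespace Vale.Agent.P275HN

open Vale.Agent.P275GC
open Vale.Agent.P275NA (Fm Cy CvC CvF Cq cq_of)

variable {C : Type} [TopologicalSpace C] {A : At C} {l : Cy A ℂ} {s : Fm A ℂ}
  {ls : ℕ → Cy A ℂ} {ps : ℕ → Fm A ℂ}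

/-- a section with more zeros than the degree vanishes -/
theorem zeros_le [T2Space C] [PreconnectedSpace C] (hs : A.Sec l s) (hh : A.Hl s) (hl : A.Cc l)
    (i : Fin A.N) (T : Finset ℂ) (hT : ∀ w ∈ T, w ∈ ball (0 : ℂ) A.R ∧ s i w = 0)
    (hd : A.deg l < T.card) (j : Fin A.N) {z : ℂ} (hz : z ∈ ball (0 : ℂ) A.R) : s j z = 0 := by
  classical
  by_contra h0
  have M := hs.mero hh hl hz h0
  refine hd.not_ge ?_
  rw [M.deg hl, finsum_eq_sum_of_support_subset (s := M.fin.toFinset ∪ T.image (A.e i).symm) _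
    fun x hx => by simp [hx]]
  have inj : InjOn (A.e i).symm T := fun a ha b hb e =>
    (A.e i).symm.injOn (At.mem_tgt.2 (hT a ha).1) (At.mem_tgt.2 (hT b hb).1) e
  have h1 : (T.card : ℤ) ≤ ∑ x ∈ T.image (A.e i).symm, A.od s x := by
    rw [Finset.sum_image inj, Finset.card_eq_sum_ones]
    push_cast
    refine Finset.sum_le_sum fun w hw => ?_
    have a := M.nonneg hh ((A.e i).symm w)
    have b := (M.eq_zero_iff (i := i) hh (hT w hw).1).not.2 (not_not.2 (hT w hw).2)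
    omega
  exact_mod_cast h1.trans (Finset.sum_le_sum_of_subset_of_nonneg Finset.subset_union_right
    fun x _ _ => M.nonneg hh x)

/-- Montel for sections -/
theorem sec_lim (hl : A.Cc l) (cl : CvC A ls l) (hp : ∀ k, A.Hl (ps k) ∧ A.Sec (ls k) (ps k))
    (b : ∀ k i z, ‖z‖ ≤ 1 → ‖ps k i z‖ ≤ 1) : ∃ (σ : ℕ → ℕ) (p : Fm A ℂ), StrictMono σ ∧
      CvF A (fun k => ps (σ k)) p ∧ A.Hl p ∧ A.Sec l p := by
  have loc : ∀ x ∈ ball (0 : ℂ) A.R, ∀ i, ∃ M : ℝ, 0 ≤ M ∧ ∀ᶠ q : ℕ × ℂ in atTop ×ˢ 𝓝 x,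
      ‖ps q.1 i q.2‖ ≤ M := fun x hx i => by
    obtain ⟨j, a, c⟩ := At.ex_unit hx i
    have t : Tendsto (fun q : ℕ × ℂ => ‖ls q.1 i j q.2‖) (atTop ×ˢ 𝓝 x) (𝓝 ‖l i j x‖) :=
      Tendsto.norm (cq_of (At.O_open i j) (cl i j) a (hl.an a).continuousAt)
    refine ⟨‖l i j x‖ + 1, by positivity, ?_⟩
    filter_upwards [t.eventually (ge_mem_nhds (lt_add_one _)), tendsto_snd.eventually (At.O_nhds a),
      tendsto_snd.eventually ((At.an_tr a).continuousAt.norm.eventually (ge_mem_nhds c))]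
      with q d e f
    rw [(hp q.1).2 i j _ e, norm_smul]
    exact (mul_le_mul d (b _ _ _ f) (norm_nonneg _) (by positivity)).trans_eq (mul_one _)
  obtain ⟨g, hg, dg⟩ := P275KR.montel (Ultrafilter.of atTop) (f := fun k z i => ps k i z)
    (U := ball 0 A.R) isOpen_ball fun x hx => by
      choose M h0 hM using loc x hx
      obtain ⟨u, hu, v, hv, h⟩ := eventually_prod_iff.1 (eventually_all.2 hM)
      obtain ⟨r, r0, hr⟩ := Metric.mem_nhds_iff.1 (inter_mem hv (isOpen_ball.mem_nhds hx))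
      refine ⟨r, r0, ∑ i, M i, (hu.filter_mono (Ultrafilter.of_le _)).mono fun k hk => ⟨differentiableOn_pi.2
        fun i => ((hp k).1 i).mono fun y hy => (hr hy).2, fun y hy => ?_⟩⟩
      exact (pi_norm_le_iff_of_nonneg (Finset.sum_nonneg fun i _ => h0 i)).2 fun i =>
        (h hk (hr hy).1 i).trans (Finset.single_le_sum (fun i _ => h0 i) (Finset.mem_univ i))
  obtain ⟨σ, hσ, h⟩ := P275KR.extract_loc (Ultrafilter.of_le _) hg
  have cv : CvF A (fun k => ps (σ k)) fun i z => g z i := fun i =>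
    (Pi.uniformContinuous_proj (fun _ : Fin A.N => ℂ) i).comp_tendstoLocallyUniformlyOn h
  refine ⟨σ, _, hσ, cv, fun i => differentiableOn_pi.1 dg i, fun i j z hz => ?_⟩
  refine tendsto_nhds_unique ((cv i).tendsto_at hz.1) ?_
  exact (((((cl i j).tendsto_at hz).comp hσ.tendsto_atTop).smul
    ((cv j).tendsto_at (At.tr_ball hz)))).congr fun k => ((hp _).2 i j z hz).symm

theorem ex_max [Nonempty C] (h : A.Ct s) :
    ∃ i z, ‖z‖ ≤ 1 ∧ ∀ j w, ‖w‖ ≤ 1 → ‖s j w‖ ≤ ‖s i z‖ := by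
  have : Nonempty (Fin A.N) := ⟨(A.cov (Classical.arbitrary C)).choose⟩
  choose z hz m using fun i => (isCompact_closedBall (0 : ℂ) 1).exists_isMaxOn
    ⟨0, mem_closedBall_self zero_le_one⟩ ((h i).mono A.unit_sub).norm
  obtain ⟨i, hi⟩ := Finite.exists_max fun i => ‖s i (z i)‖
  exact ⟨i, z i, mem_closedBall_zero_iff.1 (hz i), fun j w hw =>
    (m j (mem_closedBall_zero_iff.2 hw)).trans (hi j)⟩

/-- normalised limits of nonzero sections -/
theorem sec_nrm [Nonempty C] (hl : A.Cc l) (cl : CvC A ls l)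
    (hp : ∀ k, A.Hl (ps k) ∧ A.Sec (ls k) (ps k)) (h0 : ∀ k, ∃ i z, ‖z‖ ≤ 1 ∧ ps k i z ≠ 0) :
    ∃ (σ : ℕ → ℕ) (N : ℕ → ℝ) (p : Fm A ℂ), StrictMono σ ∧ (∀ k, 0 < N k) ∧
      (∀ k i z, ‖z‖ ≤ 1 → ‖ps k i z‖ ≤ N k) ∧
      CvF A (fun k i z => ((N (σ k) : ℂ))⁻¹ * ps (σ k) i z) p ∧ A.Hl p ∧ A.Sec l p ∧
      ∃ i, ∃ z ∈ ball (0 : ℂ) A.R, p i z ≠ 0 := by
  choose i z hz m using fun k => ex_max (s := ps k) fun i => ((hp k).1 i).continuousOn
  have pos : ∀ k, 0 < ‖ps k (i k) (z k)‖ := fun k => by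
    obtain ⟨j, w, a, b⟩ := h0 k
    exact (norm_pos_iff.2 b).trans_le (m k j w a)
  have nm : ∀ k j w, ‖((‖ps k (i k) (z k)‖ : ℂ))⁻¹ * ps k j w‖ =
      ‖ps k j w‖ / ‖ps k (i k) (z k)‖ := fun k j w => by
    rw [norm_mul, norm_inv, Complex.norm_real, norm_norm, inv_mul_eq_div]
  obtain ⟨σ, p, hσ, cv, a, b⟩ := sec_lim (ps := fun k j w => ((‖ps k (i k) (z k)‖ : ℂ))⁻¹ * ps k j w)
    hl cl (fun k => ⟨fun j => ((hp k).1 j).const_mul _, fun j j' w hw => by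
      beta_reduce
      rw [(hp k).2 j j' w hw, smul_eq_mul, smul_eq_mul, mul_left_comm]⟩)
    fun k j w hw => by rw [nm]; exact (div_le_one (pos k)).2 (m k j w hw)
  refine ⟨σ, _, p, hσ, pos, m, cv, a, b, ?_⟩
  obtain ⟨k, hk⟩ := (cv.near A.hR one_pos).exists
  refine ⟨i (σ k), z (σ k), At.mem_of_le (hz _), fun e => ?_⟩
  have := hk (i (σ k)) _ (hz (σ k))
  rw [e, dist_zero_left, nm, div_self (pos _).ne'] at this
  exact lt_irrefl _ this

/-- sections which are bounded on a determining set are bounded -/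
theorem sec_bd [Nonempty C] (hl : A.Cc l) (cl : CvC A ls l)
    (hp : ∀ k, A.Hl (ps k) ∧ A.Sec (ls k) (ps k)) (Q : Fin A.N → Set ℂ)
    (hQ : ∀ i, ∀ w ∈ Q i, w ∈ ball (0 : ℂ) A.R ∧ ∃ M, ∀ᶠ k in atTop, ‖ps k i w‖ ≤ M)
    (det : ∀ p : Fm A ℂ, A.Hl p → A.Sec l p → (∀ i, ∀ w ∈ Q i, p i w = 0) →
      ∀ i, ∀ z ∈ ball (0 : ℂ) A.R, p i z = 0) :
    ∃ M, ∀ k i z, ‖z‖ ≤ 1 → ‖ps k i z‖ ≤ M := by
  by_contra h
  push Not at h
  have h' : ∀ M : ℕ, ∃ᶠ k in atTop, ∃ i z, ‖z‖ ≤ 1 ∧ (M : ℝ) < ‖ps k i z‖ := fun M => by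
    rw [frequently_atTop]
    intro a
    choose B _ hB using fun k => At.Ct.bdd (u := ps k) (fun i => ((hp k).1 i).continuousOn) A.hR
    obtain ⟨B', hB'⟩ := ((finite_lt_nat a).image B).bddAbove
    obtain ⟨k, i, z, hz, e⟩ := h (max M B')
    refine ⟨k, not_lt.1 fun c => ?_, i, z, hz, (le_max_left _ _).trans_lt e⟩
    exact ((hB k i z hz).trans ((hB' ⟨k, c, rfl⟩).trans (le_max_right _ _))).not_gt e
  obtain ⟨τ, hτ, ht⟩ := extraction_forall_of_frequently h'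
  obtain ⟨σ, N, p, hσ, -, bd, cv, a, b, i, z, hz, ne⟩ := sec_nrm (ps := fun k => ps (τ k)) hl
    (cl.sub' hτ) (fun k => hp _) fun k => by
      obtain ⟨i, z, a, b⟩ := ht k
      exact ⟨i, z, a, norm_pos_iff.1 ((Nat.cast_nonneg k).trans_lt b)⟩
  refine ne (det p a b (fun j w hw => ?_) i z hz)
  obtain ⟨hw', M, hM⟩ := hQ j w hw
  have tN : Tendsto (fun k => N (σ k)) atTop atTop :=
    tendsto_atTop_mono (fun k => by
      obtain ⟨i, z, a, b⟩ := ht (σ k)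
      exact b.le.trans (bd _ i z a)) (tendsto_natCast_atTop_atTop.comp hσ.tendsto_atTop)
  have t0 : Tendsto (fun k => ((N (σ k) : ℂ))⁻¹) atTop (𝓝 0) :=
    ((Complex.continuous_ofReal.tendsto 0).comp tN.inv_tendsto_atTop).congr
      fun k => Complex.ofReal_inv _
  exact tendsto_nhds_unique ((cv j).tendsto_at hw') (t0.zero_mul_isBoundedUnder_le
    ⟨M, ((hτ.comp hσ).tendsto_atTop.eventually hM :)⟩)

/-- a nonzero limit of nowhere vanishing sections vanishes nowhere -/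
theorem sec_ne [PreconnectedSpace C] {p : Fm A ℂ} (hl : A.Cc l) (hp : ∀ k, A.Hl (ps k))
    (ne : ∀ k i, ∀ z ∈ ball (0 : ℂ) A.R, ps k i z ≠ 0) (cv : CvF A ps p) (a : A.Hl p)
    (b : A.Sec l p) (h0 : ∃ i, ∃ z ∈ ball (0 : ℂ) A.R, p i z ≠ 0) (i : Fin A.N) {z : ℂ}
    (hz : z ∈ ball (0 : ℂ) A.R) : p i z ≠ 0 := fun e => by
  obtain ⟨j, w, hw, h0⟩ := h0
  refine h0 (At.Fn.conn (P := fun i z => p i z = 0) (fun i j z hz => ?_) (fun i z hz e => ?_)
    (fun i z hz e => ?_) hz e j hw)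
  · beta_reduce
    rw [b i j z hz, smul_eq_mul, mul_eq_zero, or_iff_right (hl.ne hz)]
  · exact P275KR.hurwitz isOpen_ball (cv i) (.of_forall fun k => ⟨hp k i, ne k i⟩) hz e
  · exact tendsto_nhds_unique_of_frequently_eq (a.an hz i).continuousAt tendsto_const_nhds e

end Vale.Agent.P275HN
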