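import Vale.Agent.P275HN.Tw
import Vale.Agent.P275HN.Sec
import Vale.Agent.P275NA.Apr
import Vale.Agent.P275NA.Lrg
import Vale.Agent.P275Z.Ty

/-!
# P275, block HIT: continuity, homogeneity, compact frames, families
-/

set_option linter.all false

open scoped Topology Matrix.Norms.Operator ContDiff ComplexOrder OnePoint
open Set Filter Metric Matrix

noncomputable section

namespace Vale.Agent.P275HN

open Vale.Agent.P281Z.Hm Vale.Agent.P275GC Vale.Agent.P275GC.At Vale.Agent.P275MO Vale.Agent.P275MB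
open Vale.Agent.P275NA hiding Stab Hom

variable {C : Type} [TopologicalSpace C] {n : ℕ} {A B : At C}

/-! ### frames -/

theorem coc {H : Subalgebra ℂ (Mn n)} (hH : P275Z.bor n ≤ H) : CoC H := by
  refine ⟨{U | Uᴴ * U = 1}, (isCompact_univ_pi fun _ => isCompact_univ_pi fun _ =>
    isCompact_closedBall (0 : ℂ) 1).of_isClosed_subset (isClosed_eq
      (continuous_id.matrix_conjTranspose.matrix_mul continuous_id) continuous_const)
    fun U hU a _ b _ => mem_closedBall_zero_iff.2 (entry_norm_bound_of_unitary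
      (mem_unitaryGroup_iff'.2 hU) a b), fun U hU => ?_, fun σ hσ => ?_⟩
  · exact right_ne_zero_of_mul_eq_one (by rw [← Matrix.det_mul, hU, det_one])
  have S : (σᴴ * σ).PosDef := by simpa using PosDef.one.conjTranspose_mul_mul_same (unit_inj hσ)
  have e := LDL.diag_eq_lowerInv_conj S
  have dL : ((LDL.lowerInv S)ᴴ).det ≠ 0 := (ct_unit (isUnit_det_of_invertible _)).ne_zero
  have D : (LDL.diag S).PosDef := by
    rw [e]
    simpa using S.conjTranspose_mul_mul_same (unit_inj dL)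
  have p := posDef_diagonal_iff.1 D
  let E : Mn n := diagonal fun a => (((√(LDL.diagEntries S a).re)⁻¹ : ℝ) : ℂ)
  have q : ∀ a, 0 < (LDL.diagEntries S a).re := fun a => (Complex.lt_def.1 (p a)).1
  have m : (LDL.lowerInv S)ᴴ * E ∈ P275Z.bor n := (P275Z.bor n).mul_mem (P275Z.mem_bor.2
    fun a b c => by rw [conjTranspose_apply, LDL.lowerInv_triangular S c, star_zero])
      (blockTriangular_diagonal _)
  have dE : ((LDL.lowerInv S)ᴴ * E).det ≠ 0 := by
    rw [Matrix.det_mul, det_diagonal]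
    exact mul_ne_zero dL (Finset.prod_ne_zero_iff.2 fun a _ => Complex.ofReal_ne_zero.2
      (inv_ne_zero (Real.sqrt_pos.2 (q a)).ne'))
  refine ⟨σ * ((LDL.lowerInv S)ᴴ * E), ?_, _, hH (P275Z.inv_mem_bor m dE),
    (mul_nonsing_inv_cancel_right _ _ dE.isUnit).symm⟩
  have : (σ * ((LDL.lowerInv S)ᴴ * E))ᴴ * (σ * ((LDL.lowerInv S)ᴴ * E)) =
      Eᴴ * LDL.diag S * E := by
    simp only [e, conjTranspose_mul, conjTranspose_conjTranspose, Matrix.mul_assoc]
  rw [mem_setOf_eq, this, LDL.diag, diagonal_conjTranspose, diagonal_mul_diagonal,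
    diagonal_mul_diagonal, ← diagonal_one]
  congr 1
  funext a
  have r : LDL.diagEntries S a = ((LDL.diagEntries S a).re : ℂ) :=
    Complex.ext rfl (Complex.lt_def.1 (p a)).2.symm
  rw [Pi.star_apply, Complex.star_def, Complex.conj_ofReal, r, Complex.ofReal_re,
    ← Complex.ofReal_mul, ← Complex.ofReal_mul, mul_right_comm, ← mul_inv,
    Real.mul_self_sqrt (q a).le, inv_mul_cancel₀ (q a).ne', Complex.ofReal_one]

/-! ### homogeneity -/

variable {l : Cy A ℂ} {τ : Ty n}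

theorem cp_smul' (c : ℂ) (M : Mn n) {q : ℕ} (h : q ≤ n) :
    (c • M).charpoly.coeff q = c ^ (n - q) * M.charpoly.coeff q := by
  simpa only [Nat.sub_sub_self h] using P275AD.cp_smul (Nat.sub_le n q) c M

theorem hD_smul (s : ℂ) (z : Dat C A.N n) : hD A (z.smul s) = sV A s (hD A z) := by
  funext j q
  exact (congrArg (_ * ·) (cp_smul' s _ q.2.2.le)).trans (mul_left_comm _ _ _)

theorem sV_zero (s : ℂ) : sV A s (0 : Vs A n) = 0 := funext fun _ => funext fun _ => mul_zero _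

theorem hV_not {z : Ob A l τ} (h : z.1.lam ≠ 0) : hV z.pt = 0 := if_neg h

theorem hV_sc (s : ℂˣ) (y : Mod A l τ) : hV (sc s y) = sV A s (hV y) := by
  obtain ⟨z, rfl⟩ := pt_surj y
  by_cases h : z.1.lam = 0
  · rw [sc_pt, hV_pt h, hV_pt (z := osc s z) (mul_eq_zero_of_right _ h)]
    exact hD_smul s z.1
  · rw [sc_pt, hV_not h, hV_not (z := osc s z) (mul_ne_zero s.ne_zero h), sV_zero]

theorem hY_sc (s : ℂˣ) (y : Mod A l τ) : hY (sc s y) = sS A s (hY y) := by
  rw [hY, x_sc, η_sc, hV_sc]; rfl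

theorem hY_pt {z : Ob A l τ} (h : z.1.lam = 0) : hY z.pt = (z.1.x, τ.η z.1.R, hD A z.1) := by
  rw [hY, η_pt, hV_pt h]; rfl

theorem cont_sS {m : ℕ} : Continuous fun p : ℂ × Sb A n m => sS A p.1 p.2 := by
  unfold sS sV
  fun_prop

/-! ### continuity -/

theorem cut_nonneg (j : Fin A.N × Bool) (x : C) : 0 ≤ cut A j x := le_max_right _ _

theorem ex_cut (i : Fin A.N) (x : C) : ∃ b, cut A (i, b) x ≠ 0 := by
  rcases le_total (A.ext i (fun w => bp w * w.re) x) 0 with h | h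
  · exact ⟨true, (lt_max_of_lt_left (by simp only [sg, if_true]; linarith)).ne'⟩
  · exact ⟨false, (lt_max_of_lt_left (by simp only [sg]; norm_num; linarith)).ne'⟩

variable [T2Space C]

theorem cont_u (i : Fin A.N) : Continuous (A.ext i fun w => bp w * w.re) :=
  ct_ext (isCompact_closedBall 0 1) A.unit_sub
    (bp.continuous.mul Complex.continuous_re).continuousOn (fun _ _ a =>
      mul_eq_zero_of_left (bp_zero (not_le.1 fun b => a (mem_closedBall_zero_iff.2 b)).le) _) i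

theorem cont_cut (j : Fin A.N × Bool) : Continuous (cut A j) :=
  (continuous_const.sub (continuous_const.mul (cont_u j.1))).max continuous_const

theorem cut_ev (j : Fin A.N × Bool) (m : ℕ) :
    ∀ᶠ x in 𝓝 ((A.e j.1).symm (sp j.2 m)), cut A j x = 0 :=
  ((continuous_const.mul (cont_u j.1)).continuousAt.eventually (lt_mem_nhds (lt_cut j m))).mono
    fun _ a => max_eq_right (sub_nonpos.2 a.le)

theorem hD_fam {T : Type} [TopologicalSpace T] {F : T → Dat C A.N n} {t : T} (f : FamAt A l F t) :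
    ContinuousAt (fun s => hD A (F s)) t := by
  obtain ⟨r, h1, h2, V, hV, f⟩ := f
  have cx := f.x.continuousAt hV
  refine continuousAt_pi.2 fun j => continuousAt_pi.2 fun q => ?_
  by_cases c : (A.e j.1).symm (sp j.2 q.1) = (F t).x
  · refine (continuousAt_const (y := 0)).congr ((cx.eventually (c ▸ cut_ev j q.1)).mono
      fun s a => ?_)
    simp [hD, a]
  · exact (Complex.continuous_ofReal.continuousAt.comp ((cont_cut j).continuousAt.comp cx)).mul
      ((cont_coeff q.2).continuousAt.tendsto.comp (FamOn.ta f (mem_of_mem_nhds hV) (s := id)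
        (nhdsWithin_eq_nhds.2 hV).ge ⟨sp_ball (A.res r h1 h2) _ _, c⟩).2)

theorem cont_hV : Continuous fun y : M0 A l τ => hV y.1 := by
  refine continuous_iff_isClosed.2 fun W hW => ?_
  have : IsClosed {y : Mod A l τ | y.lam = 0 ∧ hV y ∈ W} := by
    refine ⟨isOpen_iff.2 fun T _ F t f h => ?_⟩
    by_cases c : (F t).1.lam = 0
    · have : hD A (F t).1 ∉ W := fun a => h ⟨c, hV_pt c ▸ a⟩
      exact ((hD_fam f).eventually (hW.isOpen_compl.mem_nhds this)).mono fun s a b =>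
        a (hV_pt b.1 ▸ b.2)
    · exact (((cont_lam.continuousAt.comp f.continuousAt).eventually_ne c)).mono fun s a b => a b.1
  have e : (fun y : M0 A l τ => hV y.1) ⁻¹' W = Subtype.val ⁻¹' {y | y.lam = 0 ∧ hV y ∈ W} :=
    Set.ext fun y => (and_iff_right y.2).symm
  exact e ▸ this.preimage continuous_subtype_val

theorem cont_hY : Continuous fun y : M0 A l τ => hY y.1 :=
  (cont_x.comp continuous_subtype_val).prodMk
    ((cont_η.comp continuous_subtype_val).prodMk cont_hV)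

/-! ### families -/

theorem cont_op {E : Type} [TopologicalSpace E] {F : OnePoint ℕ → ℂ → E} {U : Set ℂ}
    (hU : IsOpen U) (h1 : ∀ t, ContinuousOn (F t) U)
    (h2 : ∀ x ∈ U, Cq (fun k : ℕ => F k) x (F ∞ x)) :
    ContinuousOn (fun p : OnePoint ℕ × ℂ => F p.1 p.2) (univ ×ˢ U) := by
  rintro ⟨t, w⟩ ⟨-, hw⟩
  refine ContinuousAt.continuousWithinAt ?_
  have p : ∀ t, Tendsto (fun p : OnePoint ℕ × ℂ => F p.1 p.2) (pure t ×ˢ 𝓝 w) (𝓝 (F t w)) :=
    fun t => by
      rw [pure_prod, tendsto_map'_iff]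
      exact (h1 t).continuousAt (hU.mem_nhds hw)
  rw [ContinuousAt, nhds_prod_eq]
  cases t with
  | infty =>
    rw [OnePoint.nhds_infty_eq, coclosedCompact_eq_cocompact, cocompact_eq_atTop, sup_prod,
      prod_map_left]
    exact Tendsto.sup (tendsto_map' (h2 w hw)) (p _)
  | coe k =>
    rw [OnePoint.nhds_coe_eq, nhds_discrete, map_pure]
    exact p _

theorem cont_inv {U : Mn n} (h : U.det ≠ 0) : ContinuousAt (fun X : Mn n => X⁻¹) U :=
  (an_inv (𝕜 := ℂ) (f := id) analyticAt_id h).continuousAt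

theorem mk_fam {T : Type} [TopologicalSpace T] {l : Cy B ℂ} {j : Fin B.N} {y : T → C}
    {s : T → Fm B ℂ} {k : T → Cy B ℂ} {g : T → Cy B (Mn n)} {θ : T → Fm B (Mn n)} {U : T → Mn n}
    (G : ∀ t, Good B l (mk B (y t) (s t) j (g t) (θ t) (U t))) (P : ∀ t, Pl B (y t) (s t) (k t))
    (hj : ∀ t, y t ∈ (B.e j).source) (hU : ∀ t, (U t).det ≠ 0) (cy : Continuous y)
    (cU : Continuous U)
    (cs : ∀ i, ContinuousOn (fun p : T × ℂ => s p.1 i p.2) (univ ×ˢ ball 0 B.R))
    (cg : ∀ i j, ContinuousOn (fun p : T × ℂ => g p.1 i j p.2) (univ ×ˢ B.O i j))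
    (cθ : ∀ i, ContinuousOn (fun p : T × ℂ => θ p.1 i p.2) (univ ×ˢ ball 0 B.R)) :
    FamOn B l (fun t => mk B (y t) (s t) j (g t) (θ t) (U t)) univ := by
  have ce : ∀ i, ContinuousOn (fun t => (t, B.e i (y t))) {t | y t ∈ (B.e i).source} := fun i =>
    continuousOn_id.prodMk ((B.e i).continuousOn.comp cy.continuousOn fun _ a => a)
  refine ⟨fun t _ => G t, continuousOn_const, cy.continuousOn, ?_, cg, fun i => ?_, fun i => ?_⟩
  · exact (((continuousOn_of_forall_continuousAt fun t _ => (cont_inv (hU t)).comp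
      cU.continuousAt).mul ((cθ j).comp ((ce j).mono fun t _ => hj t)
        fun t _ => ⟨trivial, map_src (hj t)⟩)).mul cU.continuousOn :)
  · have m : {p : T × ℂ | p.1 ∈ univ ∧ p.2 ∈ off B (y p.1) i} ⊆ univ ×ˢ ball 0 B.R :=
      fun p a => ⟨trivial, a.2.1⟩
    exact ((((cs i).mono m).inv₀ fun p a => (P p.1).ne a.2).smul ((cθ i).mono m) :)
  · exact (((cg i j).comp (ce i) fun t a => ⟨trivial, mem_O a (hj t)⟩).mul
      cU.continuousOn).mono fun t a => a.2

/-! ### normalisation of the determinant -/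

/-- an elementary diagonal matrix -/
def dg (a : Fin n) (c : ℂ) : Mn n := 1 + (c - 1) • diagonal (Pi.single a 1)

theorem det_dg (a : Fin n) (c : ℂ) : (dg a c).det = c := by
  have : dg a c = diagonal (Function.update 1 a c) := by
    ext i j
    by_cases h : i = j
    · subst h
      by_cases h : i = a <;> simp [dg, h]
    · simp [dg, h]
  rw [this, det_diagonal, Finset.prod_update_of_mem (Finset.mem_univ a)]
  simp

theorem hl_dg (a : Fin n) {u : Fm B ℂ} (h : B.Hl u) (h0 : ∀ i, ∀ w ∈ ball (0 : ℂ) B.R, u i w ≠ 0) :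
    B.Hl fun i w => dg a (u i w)⁻¹ := fun i =>
  (differentiableOn_const _).add ((((h i).inv (h0 i)).sub_const 1).smul_const _)

theorem cq_tr {E : Type} [TopologicalSpace E] {u : ℕ → ℂ → E} {y : E} {i j : Fin B.N} {w : ℂ}
    (a : w ∈ B.O i j) (h : Cq u (B.tr i j w) y) : Cq (fun k z => u k (B.tr i j z)) w y :=
  h.comp (tendsto_id.prodMap (an_tr a).continuousAt)

theorem det_fc {V : Fm B (Mn n)} {g : Cy B (Mn n)} {i j : Fin B.N} {w : ℂ} :
    (fc B V g i j w).det = (V i w).det⁻¹ * (g i j w).det * (V j (B.tr i j w)).det := by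
  rw [fc, Matrix.det_mul, Matrix.det_mul, det_nonsing_inv, Ring.inverse_eq_inv]

theorem nrm_det [ConnectedSpace C] (a : Fin n) {l : Cy B ℂ} {gs : ℕ → Cy B (Mn n)}
    {Φ : ℕ → Fm B (Mn n)} {g : Cy B (Mn n)} (hl : B.Cc l) (hg : B.Cc g)
    (hd : ∀ k i j, ∀ w ∈ B.O i j, (gs k i j w).det = l i j w) (hΦ : ∀ k, B.Hl (Φ k))
    (ne : ∀ k i, ∀ w ∈ ball (0 : ℂ) B.R, (Φ k i w).det ≠ 0)
    (cg : CvC B (fun k => fc B (Φ k) (gs k)) g) :
    ∃ (σ : ℕ → ℕ) (V : ℕ → Fm B (Mn n)) (v : Fm B (Mn n)), StrictMono σ ∧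
      (∀ k, B.Hl (V k) ∧ (∀ i, ∀ w ∈ ball (0 : ℂ) B.R, (V k i w).det ≠ 0) ∧ ∀ i j, ∀ w ∈ B.O i j,
        (fc B (V k) (fc B (Φ (σ k)) (gs (σ k))) i j w).det = l i j w) ∧
      (B.Hl v ∧ (∀ i, ∀ w ∈ ball (0 : ℂ) B.R, (v i w).det ≠ 0) ∧ ∀ i j, ∀ w ∈ B.O i j,
        (fc B v g i j w).det = l i j w) ∧
      ∀ i, ∀ w ∈ ball (0 : ℂ) B.R, Cq (fun k => V k i) w (v i w) := by
  have hu : ∀ k, B.Hl fun i w => (Φ k i w).det := fun k i => P275KR.diffOn_det isOpen_ball (hΦ k i)
  have hm := hl.tens hg.det.dual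
  obtain ⟨σ, N, p, hσ, N0, -, cv, hp, sp, nz⟩ := sec_nrm (ps := fun k i w => (Φ k i w).det)
    (ls := fun k i j w => l i j w * (fc B (Φ k) (gs k) i j w).det⁻¹) hm
    (fun i j => of_cq (hm.hol i j).continuousOn fun w b =>
      Tendsto.mul (cq_const (hl.an b).continuousAt) (Tendsto.inv₀ ((cq_of (O_open i j) (cg i j) b
        (hg.an b).continuousAt).app continuous_id.matrix_det.continuousAt) (hg.det.ne b)))
    (fun k => ⟨hu k, fun i j w b => by
      have := ne k i w b.1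
      have := ne k j _ (tr_ball b)
      have := hl.ne b
      simp only [det_fc, hd k i j w b, smul_eq_mul]
      field_simp⟩) fun k => by
      obtain ⟨i, -⟩ := B.cov (Classical.arbitrary C)
      exact ⟨i, 0, by simp, ne k i 0 (mem_of_le (by simp))⟩
  have N1 : ∀ k, ((N k : ℝ) : ℂ) ≠ 0 := fun k => Complex.ofReal_ne_zero.2 (N0 k).ne'
  have n1 : ∀ k i, ∀ w ∈ ball (0 : ℂ) B.R, ((N (σ k) : ℝ) : ℂ)⁻¹ * (Φ (σ k) i w).det ≠ 0 :=
    fun k i w b => mul_ne_zero (inv_ne_zero (N1 _)) (ne _ i w b)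
  have h1 : ∀ k, B.Hl fun i w => ((N (σ k) : ℝ) : ℂ)⁻¹ * (Φ (σ k) i w).det :=
    fun k i => (hu _ i).const_mul _
  have p0 := fun i w b => sec_ne hm h1 n1 cv hp sp nz i (z := w) b
  refine ⟨σ, fun k i w => dg a (((N (σ k) : ℝ) : ℂ)⁻¹ * (Φ (σ k) i w).det)⁻¹,
    fun i w => dg a (p i w)⁻¹, hσ, fun k => ⟨hl_dg a (h1 k) (n1 k), fun i w b => ?_,
      fun i j w b => ?_⟩, ⟨hl_dg a hp p0, fun i w b => ?_, fun i j w b => ?_⟩, fun i w b => ?_⟩
  · rw [det_dg]; exact inv_ne_zero (n1 k i w b)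
  · have := ne (σ k) i w b.1
    have := ne (σ k) j _ (tr_ball b)
    have := N1 (σ k)
    simp only [det_fc, det_dg, hd _ i j w b]
    field_simp
  · rw [det_dg]; exact inv_ne_zero (p0 i w b)
  · have := p0 j _ (tr_ball b)
    have := hg.det.ne b
    simp only [det_fc, det_dg, sp i j w b, smul_eq_mul, inv_inv]
    field_simp
  · exact Tendsto.const_add _ (((Tendsto.inv₀ (cv.cq (hl_ct hp) b i) (p0 i w b)).sub_const
      1).smul_const _)

end Vale.Agent.P275HN
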