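import Vale.Agent.P275HN.Fam
import Vale.Agent.P275NA.Main
import Vale.Agent.P275KR.Frm

/-!
# P275, block HIT: convergent subsequences of twisted Higgs bundles
-/

set_option linter.all false

open scoped Topology Matrix.Norms.Operator ContDiff ComplexOrder
open Set Filter Metric Matrix

noncomputable section

namespace Vale.Agent.P275HN

open Vale.Agent.P281Z.Hm Vale.Agent.P275GC Vale.Agent.P275GC.At Vale.Agent.P275MO Vale.Agent.P275MB
open Vale.Agent.P275NA hiding Stab Hom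

variable {C : Type} [TopologicalSpace C] [T2Space C] [ConnectedSpace C] {n : ℕ} {B : At C}
  {l k : Cy B ℂ} {s : Fm B ℂ} {x : C} {zs : ℕ → Dat C B.N n} {ss : ℕ → Fm B ℂ} {ks : ℕ → Cy B ℂ}
  {g : Cy B (Mn n)} {θ h : Fm B (Mn n)} {ws : ℕ → Fm B ℝ} {w : Fm B ℝ}

theorem cp_hl (H : B.Hl θ) {q : ℕ} (hq : q ≤ n) : B.Hl fun i w => (θ i w).charpoly.coeff q :=
  fun i w a => by
    simpa only [Nat.sub_sub_self hq] using
      (P275AD.cp_an (Nat.sub_le n q) (H.an a i)).differentiableAt.differentiableWithinAt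

theorem cp_sec (H : Hig B k g θ) {q : ℕ} (hq : q ≤ n) :
    B.Sec (fun i j w => k i j w ^ (n - q)) fun i w => (θ i w).charpoly.coeff q := fun i j w a => by
  beta_reduce
  rw [smul_eq_mul, ← cp_smul' _ _ hq, P275AD.cp_conj (H.cc.det.ne a)
    ((Matrix.mul_smul _ _ _).trans (H.tr i j w a).symm)]

/-- sections of powers of `K(x)` are determined by the samples -/
theorem Pl.det (P : Pl B x s k) {p : Fm B ℂ} {q : ℕ} (hq : q ≤ n) (hp : B.Hl p)
    (sp : B.Sec (fun i j w => k i j w ^ q) p) (i : Fin B.N) (T : Finset ℂ)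
    (hT : ∀ w ∈ T, w ∈ ball (0 : ℂ) B.R ∧ p i w = 0) (hc : n * (|B.deg B.d| + 1) < T.card)
    (j : Fin B.N) {z : ℂ} (hz : z ∈ ball (0 : ℂ) B.R) : p j z = 0 := by
  refine zeros_le sp hp (P.cc.pow q) i T hT (lt_of_le_of_lt ?_ hc) j hz
  rw [deg_pow P.cc, P.deg]
  exact (mul_le_mul_of_nonneg_left (add_le_add_left (le_abs_self _) 1) q.cast_nonneg).trans
    (mul_le_mul_of_nonneg_right (mod_cast hq) (by positivity))

/-- bounded samples give bounded characteristic polynomials -/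
theorem cp_bd (G : ∀ a, Good B l (zs a)) (h0 : ∀ a, (zs a).lam = 0)
    (P : ∀ a, Pl B (zs a).x (ss a) (ks a)) (P' : Pl B x s k) (ck : CvC B ks k)
    (cs : ∀ i, ∀ w ∈ ball (0 : ℂ) B.R, Cq (fun a => ss a i) w (s i w))
    (tx : Tendsto (fun a => (zs a).x) atTop (𝓝 x)) (i : Fin B.N) (T : Finset ℂ)
    (hT : ∀ w ∈ T, w ∈ off B x i ∧ ∀ q < n, ∃ M, ∀ᶠ a in atTop,
      ‖((zs a).a i w).charpoly.coeff q‖ ≤ M) (hc : n * (|B.deg B.d| + 1) < T.card) :
    ∃ M, 0 ≤ M ∧ ∀ a i, ∀ w ∈ ball (0 : ℂ) 1, ∀ q,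
      ‖(tw B (ss a) (zs a) i w).charpoly.coeff q‖ ≤ M := by
  have H := fun a => tw_hig (P a) (G a) (h0 a)
  have key : ∀ q : Fin n, ∃ M, ∀ a i w, ‖w‖ ≤ 1 →
      ‖(tw B (ss a) (zs a) i w).charpoly.coeff q‖ ≤ M := fun q =>
    sec_bd (ls := fun a i j w => ks a i j w ^ (n - q)) (P'.cc.pow (n - q)) (fun i j => of_cq ((P'.cc.pow _).hol i j).continuousOn fun w b =>
      Tendsto.pow (cq_of (O_open i j) (ck i j) b (P'.cc.an b).continuousAt) _)
      (fun a => ⟨cp_hl (H a).hol q.2.le, cp_sec (H a) q.2.le⟩) (fun j => {w | j = i ∧ w ∈ T})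
      (by
        rintro j w ⟨rfl, hw⟩
        obtain ⟨o, b⟩ := hT w hw
        obtain ⟨M, hM⟩ := b q q.2
        refine ⟨o.1, (‖s j w‖ + 1) ^ (n - q) * M, ?_⟩
        filter_upwards [hM, tx.eventually_ne (Ne.symm o.2),
          (cs j w o.1).pt.norm.eventually (ge_mem_nhds (lt_add_one _))] with a b c d
        rw [tw_off ⟨o.1, c.symm⟩, cp_smul' _ _ q.2.le, norm_mul, norm_pow]
        gcongr)
      fun p hp sp e j z hz => P'.det (Nat.sub_le n q) hp sp i T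
        (fun w hw => ⟨(hT w hw).1.1, e i w ⟨rfl, hw⟩⟩) hc j hz
  choose M hM using key
  have p : 0 ≤ ∑ q, |M q| := Finset.sum_nonneg fun _ _ => abs_nonneg _
  refine ⟨1 + ∑ q, |M q|, by positivity, fun a i w hw q => ?_⟩
  have dg := (tw B (ss a) (zs a) i w).charpoly_natDegree_eq_dim
  rw [Fintype.card_fin] at dg
  rcases lt_trichotomy q n with e | rfl | e
  · exact (hM ⟨q, e⟩ a i w (mem_ball_zero_iff.1 hw).le).trans ((le_abs_self _).trans
      ((Finset.single_le_sum (f := fun q => |M q|) (fun _ _ => abs_nonneg _)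
        (Finset.mem_univ _)).trans (le_add_of_nonneg_left zero_le_one)))
  · have := (tw B (ss a) (zs a) i w).charpoly_monic.coeff_natDegree
    rw [dg] at this
    rw [this, norm_one]
    exact le_add_of_nonneg_right p
  · rw [Polynomial.coeff_eq_zero_of_natDegree_lt (dg.trans_lt e), norm_zero]
    positivity

theorem fe_smul {Φ : Mn n} (h : Φ.det ≠ 0) (c : ℂ) : Φ⁻¹ * (c • (1 : Mn n)) * Φ = c • 1 := by
  rw [Matrix.mul_smul, Matrix.mul_one, Matrix.smul_mul, nonsing_inv_mul _ h.isUnit]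

/-- the limit is Hermitian-Einstein -/
theorem he_lim (hn : 0 < n) (G : ∀ a, Good B l (zs a)) (st : ∀ a, Stab B l (zs a))
    (h0 : ∀ a, (zs a).lam = 0) (P : ∀ a, Pl B (zs a).x (ss a) (ks a)) (T : CvT B ks ws k w)
    {M : ℝ} (M0 : 0 ≤ M) (hM : ∀ a i, ∀ w ∈ ball (0 : ℂ) 1, ∀ q,
      ‖(tw B (ss a) (zs a) i w).charpoly.coeff q‖ ≤ M) {r : ℝ} (h1 : 1 < r) (h2 : r < B.R) :
    ∃ (σ : ℕ → ℕ) (Φ hs : ℕ → Fm B (Mn n)) (g : Cy B (Mn n)) (θ h : Fm B (Mn n)) (c : ℝ),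
      StrictMono σ ∧ Hig (B.res r h1 h2.le) k g θ ∧ (B.res r h1 h2.le).MtM ∞ g h ∧
      HE (B.res r h1 h2.le) w θ h c ∧ Lim (B.res r h1 h2.le) (fun a => (zs (σ a)).g)
        (fun a => tw B (ss (σ a)) (zs (σ a))) hs Φ g θ h := by
  have H := fun a => tw_hig (P a) (G a) (h0 a)
  choose hs m e using fun a => ex_ok B n _ _ _ _ hn (T.tw a) (H a)
    (tw_stab (P a) (G a) (h0 a) (st a))
  obtain ⟨c, hc⟩ : ∃ c, ∀ a, ec B (zs a).g = c :=
    ⟨_, fun a => by rw [ec, Good.degM (G a) (Good.cc_l (G a))]⟩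
  simp only [hc] at e
  obtain ⟨σ, Φ, g, θ, h, hσ, H', -, L, f⟩ := P275CP.cpt B n ks ws k w _ _ hs
    ((n + 2) * max |c| M) T (fun a => ⟨H a, m a⟩) (fun a i z hz => HK_le (m a) (m a)
      (he_iff.1 (e a)) le_rfl (fun i z hz => (nq_one ((m a).pos i z hz)).le)
      (by rw [add_zero]; exact le_max_left _ _) (by rw [zero_mul]; positivity) i hz)
    (fun a i z hz q => (hM a i z hz q).trans ((le_max_right |c| M).trans
      (le_mul_of_one_le_left (by positivity) (by linarith [n.cast_nonneg (α := ℝ)])))) r h1 h2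
  obtain ⟨m', e'⟩ := f (fun i p => ((c * B.ρ i p.1 : ℝ) : ℂ) • 1) (fun i z hz =>
    ContDiffAt.smul (f := fun p : ℂ × Mn n => ((c * B.ρ i p.1 : ℝ) : ℂ)) (g := fun _ => (1 : Mn n))
      (Complex.ofRealCLM.contDiff.contDiffAt.comp _ (contDiffAt_const.mul (ContDiffAt.comp
        (g := B.ρ i) (f := Prod.fst) (z, h i z) (show ContDiffAt ℝ ∞ (B.ρ i) z from sm_ρ.at
        (ball_subset_ball h2.le hz) i) contDiffAt_fst))) contDiffAt_const)
    fun i => (tlu_const _ _).congr fun a z hz => by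
      simp only [fe, e _ i z (ball_subset_ball h2.le hz), fe_smul (L.ne a i z hz)]
  exact ⟨σ, Φ, _, g, θ, h, c, hσ, H', m', fun (i : Fin B.N) z hz => by rw [res_ρ]; exact e' i z hz,
    L⟩

theorem fc_mul (Φ V : Fm B (Mn n)) (g : Cy B (Mn n)) :
    fc B (fun i w => Φ i w * V i w) g = fc B V (fc B Φ g) := by
  funext i j w
  simp only [fc, Matrix.mul_inv_rev, Matrix.mul_assoc]

theorem fe_mul (Φ V θ : Fm B (Mn n)) : fe B (fun i w => Φ i w * V i w) θ = fe B V (fe B Φ θ) := by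
  funext i w
  simp only [fe, Matrix.mul_inv_rev, Matrix.mul_assoc]

/-- the limit as an object, and the family -/
theorem fam_lim {τ : Ty n} {d : ℤ} {c : ℝ} {Φ hs : ℕ → Fm B (Mn n)} {j : Fin B.N} (hn : 0 < n)
    (dl : B.deg l = d) (cop : IsCoprime (n : ℤ) d) (hH : CoC τ.H) (G : ∀ a, Good B l (zs a))
    (st : ∀ a, Stab B l (zs a)) (h0 : ∀ a, (zs a).lam = 0) (hq : ∀ a, (zs a).R ∈ τ.q)
    (P : ∀ a, Pl B (zs a).x (ss a) (ks a)) (P' : Pl B x s k)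
    (cs : ∀ i, ∀ w ∈ ball (0 : ℂ) B.R, Cq (fun a => ss a i) w (s i w))
    (tx : Tendsto (fun a => (zs a).x) atTop (𝓝 x)) (hj : ∀ a, (zs a).x ∈ (B.e j).source)
    (hj' : x ∈ (B.e j).source) (T : Tw B k w) (H : Hig B k g θ) (M : B.MtM ∞ g h)
    (E : HE B w θ h c) (L : Lim B (fun a => (zs a).g) (fun a => tw B (ss a) (zs a)) hs Φ g θ h) :
    ∃ (σ : ℕ → ℕ) (F : OnePoint ℕ → Dat C B.N n), StrictMono σ ∧ FamOn B l F univ ∧
      (∀ t, Stab B l (F t) ∧ (F t).R ∈ τ.q ∧ (F t).lam = 0) ∧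
      ∀ a : ℕ, ∃ φ c, c ∈ τ.H ∧ IsoBy B (zs (σ a)) (F a) φ c := by
  have hl := Good.cc_l (G 0)
  obtain ⟨σ, V, v, hσ, hV, ⟨v1, v2, v3⟩, cV⟩ := nrm_det ⟨0, hn⟩ hl H.cc (fun a => (G a).det)
    L.an L.ne L.cg
  let Ψ : ℕ → Fm B (Mn n) := fun a i w => Φ (σ a) i w * V a i w
  have Ψ1 : ∀ a, B.Hl (Ψ a) := fun a => hl_of fun i w b =>
    an_mul ((L.an _).an b i) ((hV a).1.an b i)
  have Ψ2 : ∀ a i, ∀ w ∈ ball (0 : ℂ) B.R, (Ψ a i w).det ≠ 0 := fun a i w b => by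
    rw [Matrix.det_mul]
    exact mul_ne_zero (L.ne _ i w b) ((hV a).2.1 i w b)
  obtain ⟨K, cK, dK, fK⟩ := hH
  choose U hU e he eU using fun a => fK ((Ψ a j (B.e j (zs (σ a)).x))⁻¹ * (zs (σ a)).σ j) (by
    rw [Matrix.det_mul, det_nonsing_inv, Ring.inverse_eq_inv]
    exact mul_ne_zero (inv_ne_zero (Ψ2 a j _ (map_src (hj _)))) ((G _).fr j (hj _)))
  have : FirstCountableTopology (Mn n) :=
    inferInstanceAs (FirstCountableTopology (Fin n → Fin n → ℂ))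
  obtain ⟨U', hU', ρ, hρ, tU⟩ := cK.tendsto_subseq hU
  have hσρ := hσ.comp hρ
  let y : OnePoint ℕ → C := fun t => t.elim x fun a => (zs (σ (ρ a))).x
  let s' : OnePoint ℕ → Fm B ℂ := fun t => t.elim s fun a => ss (σ (ρ a))
  let k' : OnePoint ℕ → Cy B ℂ := fun t => t.elim k fun a => ks (σ (ρ a))
  let g' : OnePoint ℕ → Cy B (Mn n) := fun t => t.elim (fc B v g) fun a =>
    fc B (Ψ (ρ a)) (zs (σ (ρ a))).g
  let θ' : OnePoint ℕ → Fm B (Mn n) := fun t => t.elim (fe B v θ) fun a =>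
    fe B (Ψ (ρ a)) (tw B (ss (σ (ρ a))) (zs (σ (ρ a))))
  let W : OnePoint ℕ → Mn n := fun t => t.elim U' fun a => U (ρ a)
  have p1 : ∀ t, Pl B (y t) (s' t) (k' t) := OnePoint.rec P' fun a => P _
  have p2 : ∀ t, Hig B (k' t) (g' t) (θ' t) := OnePoint.rec (P275CP.hig_fr H v1 v2) fun a =>
    P275CP.hig_fr (tw_hig (P _) (G _) (h0 _)) (Ψ1 _) (Ψ2 _)
  have p3 : ∀ t i j, ∀ w ∈ B.O i j, (g' t i j w).det = l i j w := OnePoint.rec v3 fun a => by
    simpa only [g', OnePoint.elim_some, Ψ, fc_mul] using (hV (ρ a)).2.2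
  have p4 : ∀ t, y t ∈ (B.e j).source := OnePoint.rec hj' fun a => hj _
  have p5 : ∀ t, (W t).det ≠ 0 := OnePoint.rec (dK _ hU') fun a => dK _ (hU _)
  have c1 : ∀ i j, ∀ w ∈ B.O i j, Cq (fun a : ℕ => g' a i j) w (g' .infty i j w) := fun i j w b => by
    simp only [g', OnePoint.elim_some, Ψ, fc_mul]
    exact ((((cV i w b.1).minv (v2 i w b.1)).mmul ((cq_of (O_open i j) (L.cg i j) b
      (H.cc.an b).continuousAt).sub' hσ)).mmul (cq_tr b (cV j _ (tr_ball b)))).sub' hρ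
  have c2 : ∀ i, ∀ w ∈ ball (0 : ℂ) B.R, Cq (fun a : ℕ => θ' a i) w (θ' .infty i w) := fun i w b => by
    simp only [θ', OnePoint.elim_some, Ψ, fe_mul]
    exact ((((cV i w b).minv (v2 i w b)).mmul ((L.ca.cq (hl_ct H.hol) b i).sub' hσ)).mmul
      (cV i w b)).sub' hρ
  have t1 : ∀ (a : ℕ) i, ∀ w ∈ ball (0 : ℂ) B.R, (θ' a i w).trace = 0 := fun a i w b => by
    show ((Ψ _ i w)⁻¹ * _ * Ψ _ i w).trace = 0
    rw [trace_mul_comm, mul_nonsing_inv_cancel_left _ _ (Ψ2 _ i w b).isUnit,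
      tw_tr (G _) (τ.tr _ (hq _)) b]
  have p6 : ∀ t i, ∀ w ∈ ball (0 : ℂ) B.R, (θ' t i w).trace = 0 := OnePoint.rec (fun i w b =>
    tendsto_nhds_unique ((c2 i w b).app continuous_id.matrix_trace.continuousAt).pt
      (tendsto_const_nhds.congr fun a => (t1 a i w b).symm)) t1
  have G' := fun t => mk_good (p1 t) (p2 t) (p3 t) (p6 t) (p4 t) (p5 t)
  have f := mk_fam G' p1 p4 p5 ((OnePoint.continuous_iff_from_nat _).2
    (tx.comp hσρ.tendsto_atTop)) ((OnePoint.continuous_iff_from_nat _).2 tU)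
    (fun i => cont_op isOpen_ball (fun t => ((p1 t).hol i).continuousOn)
      fun w b => (cs i w b).sub' hσρ)
    (fun i j => cont_op (O_open i j) (fun t => ((p2 t).cc.hol i j).continuousOn) (c1 i j))
    fun i => cont_op isOpen_ball (fun t => ((p2 t).hol i).continuousOn) (c2 i)
  have I := fun a => mk_iso (P (σ (ρ a))) (G _) (h0 _) (Ψ1 (ρ a)) (Ψ2 _) (hj _) (eU (ρ a))
  have q1 : ∀ a : ℕ, (mk B (y a) (s' a) j (g' a) (θ' a) (W a)).R ∈ τ.q := fun a =>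
    (IsoBy.R (G _) (G' a) (I a)).symm ▸ (τ.conj _ (he _) (IsoBy.det_h (G _) (I a)) _ (hq _)).1
  refine ⟨σ ∘ ρ, _, hσρ, f, OnePoint.rec ⟨?_, ?_, rfl⟩ fun a => ⟨?_, q1 a, rfl⟩,
    fun a => ⟨_, _, he _, I a⟩⟩
  · refine mk_stab (c := c) P' T (p2 .infty) (P275CP.mt_fr M v1 v2) (fun i z hz => ?_)
      ((Good.degM (G' .infty) hl).trans dl) dl cop (P275KR.frm B)
    exact (HK_fm v1 (v2 i z hz) M hz).trans (by rw [fe, E i z hz, fe_smul (v2 i z hz)])
  · exact τ.q.closed_of_finiteDimensional.mem_of_tendsto ((OnePoint.continuous_iff_from_nat _).1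
      (continuousOn_univ.1 f.R)) (.of_forall q1)
  · exact Stab.iso (G' a) (G _) (IsoBy.symm (G _) (I a)).toHom (IsoBy.symm (G _) (I a)).det (st _)

end Vale.Agent.P275HN
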