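import Vale.Agent.P275HN.Main
import Vale.Agent.P275HE.Defs

/-!
# P275, block HIT: the samples determine the characteristic polynomial
-/

set_option linter.all false

open scoped Topology Matrix.Norms.Operator ContDiff
open Set Filter Metric Matrix

noncomputable section

namespace Vale.Agent.P275HN

open Vale.Agent.P275GC Vale.Agent.P275GC.At Vale.Agent.P275MO Vale.Agent.P275MB
open Vale.Agent.P275NA hiding Stab Hom

variable {C : Type} [TopologicalSpace C] {n : ℕ} {A : At C} {l : Cy A ℂ} {τ : Ty n} {d : ℤ}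

theorem cp_det0 [T2Space C] [ConnectedSpace C] {z z' : Dat C A.N n} {s : Fm A ℂ} {k : Cy A ℂ}
    (P : Pl A z.x s k) (G : Good A l z) (G' : Good A l z') (h0 : z.lam = 0) (h0' : z'.lam = 0)
    (ex : z'.x = z.x) (j : Fin A.N) (T : Finset ℂ) (hT : ∀ w ∈ T, w ∈ off A z.x j ∧ ∀ q < n,
      (z.a j w).charpoly.coeff q = (z'.a j w).charpoly.coeff q)
    (hc : n * (|A.deg A.d| + 1) < T.card) (i : Fin A.N) {w : ℂ} (hw : w ∈ off A z.x i) :
    (z.a i w).charpoly = (z'.a i w).charpoly := by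
  have H := tw_hig P G h0
  have H' := tw_hig (z := z') (ex.symm ▸ P) G' h0'
  have k : ∀ {q : ℕ}, q ≤ n → ∀ i, ∀ w ∈ off A z.x i,
      (tw A s z i w).charpoly.coeff q - (tw A s z' i w).charpoly.coeff q = s i w ^ (n - q) *
        ((z.a i w).charpoly.coeff q - (z'.a i w).charpoly.coeff q) := fun hq i w o => by
    rw [tw_off o, tw_off (z := z') (ex.symm ▸ o), cp_smul' _ _ hq, cp_smul' _ _ hq, mul_sub]
  ext q
  have dg : ∀ X : Mn n, X.charpoly.natDegree = n := fun X =>
    X.charpoly_natDegree_eq_dim.trans (Fintype.card_fin n)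
  rcases lt_trichotomy q n with c | rfl | c
  · have := P.det (Nat.sub_le n q) (p := fun i w =>
      (tw A s z i w).charpoly.coeff q - (tw A s z' i w).charpoly.coeff q)
      (fun i => (cp_hl H.hol c.le i).sub (cp_hl H'.hol c.le i))
      (fun i j w a => by
        beta_reduce
        rw [smul_sub]
        exact congrArg₂ (· - ·) (cp_sec H c.le i j w a) (cp_sec H' c.le i j w a))
      j T (fun w hw => ⟨(hT w hw).1.1, (k c.le j _ (hT w hw).1).trans
        (mul_eq_zero_of_right _ (sub_eq_zero.2 ((hT w hw).2 q c)))⟩) hc i hw.1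
    exact sub_eq_zero.1 ((mul_eq_zero.1 ((k c.le i w hw).symm.trans this)).resolve_left
      (pow_ne_zero _ (P.ne hw)))
  · have f : ∀ X : Mn q, X.charpoly.coeff q = 1 := fun X => by
      simpa only [dg] using X.charpoly_monic.coeff_natDegree
    rw [f, f]
  · rw [Polynomial.coeff_eq_zero_of_natDegree_lt ((dg _).trans_lt c),
      Polynomial.coeff_eq_zero_of_natDegree_lt ((dg _).trans_lt c)]

/-- the samples determine the characteristic polynomial -/
theorem cp_det [T2Space C] [ConnectedSpace C] {r : ℝ} {h1 : 1 < r} {h2 : r ≤ A.R}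
    {z z' : Dat C A.N n} (G : Good (A.res r h1 h2) l z) (G' : Good (A.res r h1 h2) l z')
    (h0 : z.lam = 0) (h0' : z'.lam = 0) (ex : z'.x = z.x) (e : hD A z = hD A z') (i : Fin A.N)
    {w : ℂ} (hw : w ∈ off (A.res r h1 h2) z.x i) : (z.a i w).charpoly = (z'.a i w).charpoly := by
  obtain ⟨b, hb⟩ := ex_cut i z.x
  refine cp_det0 (A := A.res r h1 h2) (pl_nr (nr_self (A := A) z.x h2) h1 h2) G G' h0 h0' ex i
    (smp A n b) (fun w hw => ?_) ?_ i hw
  · obtain ⟨m, -, rfl⟩ := Finset.mem_image.1 hw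
    refine ⟨sp_off (j := (i, b)) hb m h1 h2, fun q c => ?_⟩
    have f := congrFun (congrFun e (i, b)) (m, ⟨q, c⟩)
    simp only [hD, ex, Pi.smul_apply, smul_eq_mul] at f
    exact mul_left_cancel₀ (Complex.ofReal_ne_zero.2 hb) f
  · rw [show (A.res r h1 h2).deg (A.res r h1 h2).d = A.deg A.d from res_deg A.d]
    exact card_smp b

/-- the fibres of the Hitchin map -/
theorem fb_iff (hS : Std A l n d) {m m₀ : Mod A l τ} (h0 : m.lam = 0) (h0' : m₀.lam = 0) :
    hY m = hY m₀ ↔ m ∈ P275HE.Fb m₀ := by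
  haveI := hS.t2
  haveI := hS.conn
  have e0 : m.rep.1.lam = 0 := by rw [← lam_pt, m.pt_rep, h0]
  have e0' : m₀.rep.1.lam = 0 := by rw [← lam_pt, m₀.pt_rep, h0']
  have v : hV m = hD A m.rep.1 := by rw [← hV_pt e0, m.pt_rep]
  have v' : hV m₀ = hD A m₀.rep.1 := by rw [← hV_pt e0', m₀.pt_rep]
  have x : m.rep.1.x = m.x := by rw [← x_pt, m.pt_rep]
  have x' : m₀.rep.1.x = m₀.x := by rw [← x_pt, m₀.pt_rep]
  refine ⟨fun e => ?_, fun ⟨_, a, b, c⟩ => Prod.ext a (Prod.ext b ?_)⟩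
  · have a : m.x = m₀.x := congrArg Prod.fst e
    obtain ⟨r, h1, h2, G, G'⟩ := Ob.ex2 m.rep m₀.rep
    exact ⟨h0, a, congrArg (·.2.1) e, fun i w b c => cp_det G G' e0 e0' (by rw [x, x', a])
      (v.symm.trans ((congrArg (·.2.2) e).trans v')) i ⟨unit_r h1 b, by rwa [x, a]⟩⟩
  · show hV m = hV m₀
    rw [v, v']
    funext j q
    change (cut A j m.rep.1.x : ℂ) * (m.rep.1.a j.1 (sp j.2 q.1)).charpoly.coeff q.2 =
      (cut A j m₀.rep.1.x : ℂ) * (m₀.rep.1.a j.1 (sp j.2 q.1)).charpoly.coeff q.2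
    rw [x, x', a]
    by_cases f : cut A j m₀.x = 0
    · rw [f, Complex.ofReal_zero, zero_mul, zero_mul]
    · rw [c _ _ (by linarith [norm_sp j.2 q.1]) (sp_off f q.1 A.hR le_rfl).2]

end Vale.Agent.P275HN
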