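import Vale.Agent.P275HN.Fb
import Vale.Agent.P275OI.Defs

/-!
# P275, block HIT: the blocks `FBE` and `HIT` of the package
-/

namespace Vale.Agent.P275HN

open Vale.Agent.P275GC Vale.Agent.P275MO

variable {C : Type} [TopologicalSpace C] [P275CC.Nc C] {n : ℕ} {A : At C} {l : P275NA.Cy A ℂ}
  {d : ℤ} [P275MM.Hy A l n]

theorem fbe (hS : Std A l n d) (hn : 2 ≤ n) : P275OI.FBE A l hn := fun _ _ a b => fb_iff hS a b

theorem hit (hS : Std A l n d) : P275OI.HIT n A l := fun _ h => proper hS (coc h)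

end Vale.Agent.P275HN
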