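import Vale.Agent.P275HN.Hsq
import Vale.Agent.P275Z.Brg

/-!
# P275, block HIT: the Hitchin map of the statement
-/

set_option linter.all false

open scoped Topology Matrix.Norms.Operator ContDiff Manifold
open Set Filter Metric Matrix

noncomputable section

namespace Vale.Agent.P275HN

open Vale.Agent.P275GC Vale.Agent.P275GC.At Vale.Agent.P275MO Vale.Agent.P275MB
open Vale.Agent.P275NA (Fm Cy Mn)
open Vale.Agent.P275Z (tauX bor Rp)
open Vale.Agent.P275AD (Ok)

variable {C : Type} [TopologicalSpace C] [T2Space C] [ChartedSpace ℂ C] [PreconnectedSpace C]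
  [IsManifold 𝓘(ℂ) ω C] {n : ℕ} {A : At C} {l : Cy A ℂ} {τ : Ty n} {d : ℤ}

theorem proper_fib {X Y Z : Type} [TopologicalSpace X] [TopologicalSpace Y] [TopologicalSpace Z]
    [T1Space Y] {u : X → Prop} {f : X → Y} {g : X → Z} (p : Y)
    (h : IsProperMap fun x : {x // u x} => (f x.1, g x.1)) :
    IsProperMap fun x : {x // u x ∧ f x = p} => g x.1 := by
  let ι : {x // u x ∧ f x = p} → {x // u x} := fun y => ⟨y.1, y.2.1⟩
  have r : range ι = (fun x : {x // u x} => f x.1) ⁻¹' {p} := Set.ext fun y =>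
    ⟨by rintro ⟨z, rfl⟩; exact z.2.2, fun a => mem_range.2 ⟨⟨y.1, y.2, a⟩, rfl⟩⟩
  have hι : Topology.IsClosedEmbedding ι := ⟨.of_comp (continuous_subtype_val.subtype_mk _)
    continuous_subtype_val .subtypeVal, r ▸ isClosed_singleton.preimage h.continuous.fst⟩
  have e : (fun x : {x // u x} => (f x.1, g x.1)) ∘ ι = Prod.mk p ∘ fun x => g x.1 :=
    funext fun y => Prod.ext y.2.2 rfl
  exact isProperMap_of_comp_of_inj (h.continuous.snd.comp hι.continuous)
    (continuous_const.prodMk continuous_id) (e ▸ h.comp hι.isProperMap) (Prod.mk_right_injective p)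

theorem proper_p (ok : Ok A) (hS : Std A l n d) (hH : CoC τ.H) (hq : τ.q = ⊥) (p : C) :
    IsProperMap fun y : {y : Mod A l τ // y.lam = 0 ∧ y.x = p} => hB y.1 :=
  proper_fib p (P275HB.proper_hB ok hq (proper hS hH))

theorem hit_rp (ok : Ok A) {D : C →₀ ℤ} {E : P275ST.Higgs C n D} {z : Ob A l τ} (hR : z.1.R = 0)
    (h : Rp A E z.1) : E.Hit (hB z.pt) := by
  obtain ⟨h0, r, h1, h2, a, σ, h, e⟩ := h
  have ok' := P275HB.ok_res (h1 := h1) (h2 := h2) ok
  obtain ⟨b, hb⟩ := P275AD.exists_base ok' (h.hig ok')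
  obtain ⟨r', a1, a2, G⟩ := Ob.ex z
  have m := lt_min h1 a1
  rw [P275HB.hB_eq ok (Good.mono G m (min_le_right _ _)) h0 hR (b := b) fun k i w hw => by
    have o : w ∈ off (A.res r h1 h2) z.1.x i := ⟨ball_subset_ball (min_le_left _ _) hw.1, hw.2⟩
    exact (hb k i w o.1).trans (by rw [e i w o])]
  exact (P275AD.hit_iff ok' h b).2 hb

/-- **HITX** -/
theorem hitx : P275Z.HITX := fun S T =>
  ⟨_, proper_p T.ok T.std coc_X rfl S.p, fun _ z _ h => hit_rp T.ok (P275HB.R_zero rfl z) h⟩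

end Vale.Agent.P275HN
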