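import Vale.Agent.P275HN.Main
import Vale.Agent.P275NU.Defs

/-!
# P275, block HIT: bounded sequences of Higgs bundles
-/

set_option linter.all false

open scoped Topology Matrix.Norms.Operator ContDiff
open Set Filter Metric Matrix

noncomputable section

namespace Vale.Agent.P275HN

open Vale.Agent.P275GC Vale.Agent.P275GC.At Vale.Agent.P275MO Vale.Agent.P275MB
open Vale.Agent.P275NA hiding Stab Hom
open Vale.Agent.P275Z (tauX bor)

variable {C : Type} [TopologicalSpace C] {n : ℕ} {A : At C} {l : Cy A ℂ} {τ : Ty n} {d : ℤ}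

theorem coc_X : CoC (tauX n).H := coc le_top

theorem hsq (hS : Std A l n d) : P275NU.HSQ A n l := by
  intro y r h1 h2 g a M hy hM
  haveI := hS.t2
  haveI := hS.cpt
  obtain ⟨K, hK⟩ := (isCompact_range (continuous_pi fun j => cont_cut (A := A) j)).isBounded
    |>.exists_norm_le
  have p : 0 ≤ |K| * |M| := by positivity
  obtain ⟨y₀, -, σ, b, c⟩ := seq hS coc_X y (fun k => (hy k).1) (M := |K| * |M|) fun k => by
    obtain ⟨e, -, z, ez, -, -, ha⟩ := hy k
    rw [← ez] at e ⊢
    rw [hV_pt e]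
    refine (pi_norm_le_iff_of_nonneg p).2 fun j => (pi_norm_le_iff_of_nonneg p).2 fun q => ?_
    change ‖(cut A j z.1.x : ℂ) * (z.1.a j.1 (sp j.2 q.1)).charpoly.coeff q.2‖ ≤ _
    by_cases c : cut A j z.1.x = 0
    · rwa [c, Complex.ofReal_zero, zero_mul, norm_zero]
    rw [norm_mul, Complex.norm_real, ha _ _ (sp_off c q.1 (h1 k) (h2 k))]
    exact mul_le_mul (((norm_le_pi_norm (fun j => cut A j z.1.x) j).trans (hK _ ⟨_, rfl⟩)).trans
      (le_abs_self _)) ((hM k _ _ (mem_ball_zero_iff.2 (by linarith [norm_sp j.2 q.1])) _).trans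
      (le_abs_self _)) (norm_nonneg _) (abs_nonneg _)
  exact ⟨σ, y₀, b, c⟩

end Vale.Agent.P275HN
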