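import Vale.Agent.P275HN.Defs
import Vale.Agent.P275OS.Main
import Vale.Agent.P275MB.Lim
import Vale.Agent.P275CP.Core

/-!
# P275, block HIT: objects at `λ = 0` and twisted Higgs bundles
-/

set_option linter.all false

open scoped Topology Matrix.Norms.Operator ContDiff
open Set Filter Metric Matrix

noncomputable section

namespace Vale.Agent.P275HN

open Vale.Agent.P281Z.Hm Vale.Agent.P275GC Vale.Agent.P275GC.At Vale.Agent.P275MO Vale.Agent.P275MB
open Vale.Agent.P275NA hiding Stab Hom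
open Vale.Agent.P275OS (off_ev')

variable {C : Type} [TopologicalSpace C] {n : ℕ} {A B : At C} {y : C} {s : Fm B ℂ} {k l : Cy B ℂ}
  {i j : Fin B.N} {w : ℂ} {z : Dat C B.N n} {g : Cy B (Mn n)} {θ Φ h : Fm B (Mn n)} {U : Mn n}

/-- `s` are local equations of the point `y`, and `k` is the cocycle of `K(y)` -/
structure Pl (B : At C) (y : C) (s : Fm B ℂ) (k : Cy B ℂ) : Prop where
  cc : B.Cc k
  hol : B.Hl s
  tr : ∀ i j, ∀ w ∈ B.O i j, k i j w * s j (B.tr i j w) = B.d i j w * s i w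
  zero : ∀ i, ∀ w ∈ ball (0 : ℂ) B.R, s i w = 0 ↔ (B.e i).symm w = y
  eq : ∀ i, y ∈ (B.e i).source → ∀ w, s i w = w - B.e i y
  one : ∀ i j, y ∈ (B.e i).source → y ∈ (B.e j).source → k i j (B.e i y) = 1
  deg : B.deg k = B.deg B.d + 1

theorem Pl.res (P : Pl B y s k) {r : ℝ} (h1 : 1 < r) (h2 : r ≤ B.R) : Pl (B.res r h1 h2) y s k :=
  ⟨P.cc.res, P.hol.res, fun i j w a => P.tr i j w (res_O.1 a).1,
    fun i w a => P.zero i w (ball_subset_ball h2 a), fun i a => P.eq i a.1,
    fun i j a b => P.one i j a.1 b.1, (res_deg k).trans (P.deg.trans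
      (congrArg (· + 1) (res_deg B.d).symm))⟩

theorem pl_nr [T2Space C] {x : C} {r : ℝ} (h : A.Nr x r y) (h1 : 1 < r) (h2 : r ≤ A.R) :
    Pl (A.res r h1 h2) y (A.sg x y) (kx A x y) where
  cc := (A.res r h1 h2).cc_d.tens h.cc
  hol := (hl_sg x y).res
  tr := fun (i j : Fin A.N) w a => by
    rw [h.sec i j w a]
    exact mul_assoc _ _ _
  zero := fun (i : Fin A.N) w a => h.sg_eq_zero h2 a
  eq := fun (i : Fin A.N) a w => congrFun (sg_mem (h.src a.2 ((A.e i).left_inv a.1))) w
  one := fun (i j : Fin A.N) a b => by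
    have o := mem_O (A := A.res r h1 h2) a b
    exact (congrArg (A.d i j (A.e i y) * ·) (h.ox_at o ((A.e i).left_inv a.1))).trans
      (mul_inv_cancel₀ (d_ne (res_O.1 o).1))
  deg := (deg_tens (A.res r h1 h2).cc_d h.cc).trans
    (congrArg (_ + ·) ((res_deg _).trans (h.deg h1 h2)))

theorem Pl.ne (P : Pl B y s k) (a : w ∈ off B y i) : s i w ≠ 0 := mt (P.zero i w a.1).1 a.2

open Classical in
/-- the twisted Higgs field -/
def tw (B : At C) (s : Fm B ℂ) (z : Dat C B.N n) : Fm B (Mn n) := fun i w =>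
  if (B.e i).symm w = z.x then z.σ i * z.R * (z.σ i)⁻¹ else s i w • z.a i w

theorem tw_off (a : w ∈ off B z.x i) : tw B s z i w = s i w • z.a i w := if_neg a.2

theorem tw_at (a : z.x ∈ (B.e i).source) : tw B s z i (B.e i z.x) = z.σ i * z.R * (z.σ i)⁻¹ :=
  if_pos ((B.e i).left_inv a)

/-- the object given by a twisted Higgs bundle and a frame -/
def mk (B : At C) (y : C) (s : Fm B ℂ) (i₀ : Fin B.N) (g : Cy B (Mn n)) (θ : Fm B (Mn n))
    (U : Mn n) : Dat C B.N n :=
  ⟨0, y, g, fun i w => (s i w)⁻¹ • θ i w, fun i => g i i₀ (B.e i y) * U,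
    U⁻¹ * θ i₀ (B.e i₀ y) * U⟩

variable [T2Space C]

theorem tw_df (P : Pl B z.x s k) (G : Good B l z) (a : w ∈ off B z.x i) :
    DifferentiableAt ℂ (tw B s z i) w :=
  have b := (off_open z.x i).mem_nhds a
  ((P.hol.an a.1 i).differentiableAt.smul ((G.hol i).differentiableAt b)).congr_of_eventuallyEq
    (eventually_of_mem b fun _ => tw_off)

theorem tw_hl (P : Pl B z.x s k) (G : Good B l z) : B.Hl (tw B s z) := fun i w a => by
  refine DifferentiableAt.differentiableWithinAt ?_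
  by_cases c : (B.e i).symm w = z.x
  swap
  · exact tw_df P G ⟨a, c⟩
  have d : z.x ∈ (B.e i).source := c ▸ map_tgt a
  have ew : B.e i z.x = w := by rw [← c, rinv a]
  refine (Complex.analyticAt_of_differentiable_on_punctured_nhds_of_continuousAt
    ((off_ev' a _).mono fun _ => tw_df P G) (continuousAt_iff_punctured_nhds.2 ?_)).differentiableAt
  have e := G.pole i d
  rw [← tw_at (s := s) d, ew] at e
  exact e.congr' ((off_ev' a z.x).mono fun y b => by rw [tw_off b, P.eq i d, ew])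

theorem tw_hig (P : Pl B z.x s k) (G : Good B l z) (h0 : z.lam = 0) : Hig B k z.g (tw B s z) := by
  have H := tw_hl P G
  refine ⟨G.cc, H, fun i j w a => tendsto_nhds_unique_of_eventuallyEq (l := 𝓝[≠] w)
    (((H.an a.1 i).mul (G.cc.an a)).continuousAt.mono_left nhdsWithin_le_nhds)
    (((P.cc.an a).smul ((G.cc.an a).mul ((H.an (tr_ball a) j).comp
      (an_tr a)))).continuousAt.mono_left nhdsWithin_le_nhds) ?_⟩
  filter_upwards [off_ev' a.1 z.x, nhdsWithin_le_nhds (O_nhds a)] with y b c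
  have e := Good.law' G c b.2
  simp only [h0, zero_smul, add_zero, zero_mul, mul_zero] at e
  simp only [Pi.mul_apply, Pi.smul_apply', Function.comp, tw_off b, tw_off (off_tr c b.2),
    Matrix.smul_mul, Matrix.mul_smul, e, smul_smul, P.tr i j y c, mul_comm]

theorem tw_tr (G : Good B l z) (hR : z.R.trace = 0) (a : w ∈ ball (0 : ℂ) B.R) :
    (tw B s z i w).trace = 0 := by
  by_cases c : (B.e i).symm w = z.x
  · rw [tw, if_pos c, trace_mul_comm, nonsing_inv_mul_cancel_left _ _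
      (G.fr i (c ▸ map_tgt a)).isUnit, hR]
  · rw [tw_off ⟨a, c⟩, trace_smul, G.tr i w ⟨a, c⟩, smul_zero]

theorem tw_stab (P : Pl B z.x s k) (G : Good B l z) (h0 : z.lam = 0) (st : Stab B l z) :
    P275NA.Stab B z.g (tw B s z) := fun q S a b c e => by
  rw [Good.degM G (Good.cc_l G)]
  refine st q S a b c fun i w m u _ v => ?_
  have := e i w m.1 _ v.self_of_nhds
  rw [tw_off m, smul_mulVec, Submodule.smul_mem_iff _ (P.ne m)] at this
  rwa [h0, zero_smul, zero_add]

theorem mk_at (P : Pl B y s k) (H : Hig B k g θ) (a : y ∈ (B.e i).source) (b : y ∈ (B.e j).source) :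
    θ i (B.e i y) * g i j (B.e i y) = g i j (B.e i y) * θ j (B.e j y) := by
  rw [H.tr i j _ (mem_O a b), P.one i j a b, one_smul, tr_e a]

theorem mk_good (P : Pl B y s k) (H : Hig B k g θ)
    (hd : ∀ i j, ∀ w ∈ B.O i j, (g i j w).det = l i j w)
    (ht : ∀ i, ∀ w ∈ ball (0 : ℂ) B.R, (θ i w).trace = 0) (hj : y ∈ (B.e j).source)
    (hU : U.det ≠ 0) : Good B l (mk B y s j g θ U) where
  cc := H.cc
  det := hd
  hol i w a := (((P.hol.an a.1 i).inv (P.ne a)).smul
    (H.hol.an a.1 i)).differentiableAt.differentiableWithinAt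
  tr i w a := by
    show ((s i w)⁻¹ • θ i w).trace = 0
    rw [trace_smul, ht i w a.1, smul_zero]
  law i i' w a b := ⟨0, by
    have p := P.ne (i := i) ⟨a.1, b⟩
    have q := P.ne (off_tr a b)
    have e : (s i w)⁻¹ * k i i' w = B.d i i' w * (s i' (B.tr i i' w))⁻¹ := by
      field_simp
      linear_combination P.tr i i' w a
    simp only [mk, zero_smul, add_zero, Matrix.smul_mul, Matrix.mul_smul, H.tr i i' w a, smul_smul,
      e]⟩
  fr i a := by
    show (g i j (B.e i y) * U).det ≠ 0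
    rw [Matrix.det_mul]
    exact mul_ne_zero (H.cc.det.ne (mem_O a hj)) hU
  frc i i' a b := by
    show g i j (B.e i y) * U = g i i' (B.e i y) * (g i' j (B.e i' y) * U)
    rw [H.cc.mul i i' j _ (mem_O (x := y) a b) (mem_O a hj), tr_e (x := y) a, Matrix.mul_assoc]
  pole i a := by
    have e : g i j (B.e i y) * U * (U⁻¹ * θ j (B.e j y) * U) * (g i j (B.e i y) * U)⁻¹ =
        θ i (B.e i y) := by
      rw [Matrix.mul_inv_rev]
      simp only [Matrix.mul_assoc, mul_nonsing_inv_cancel_left _ _ hU.isUnit]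
      rw [← Matrix.mul_assoc, ← mk_at P H a hj,
        mul_nonsing_inv_cancel_right _ _ (H.cc.det.ne (mem_O (x := y) a hj)).isUnit]
    show Tendsto (fun w => (w - B.e i y) • (s i w)⁻¹ • θ i w) _ (𝓝 (g i j (B.e i y) * U *
      (U⁻¹ * θ j (B.e j y) * U) * (g i j (B.e i y) * U)⁻¹))
    rw [e]
    refine ((H.hol.an (map_src a) i).continuousAt.tendsto.mono_left nhdsWithin_le_nhds).congr'
      ((off_ev a).mono fun w b => ?_)
    beta_reduce
    rw [← P.eq i a, smul_inv_smul₀ (P.ne b)]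

/-- Hermitian-Einstein objects of coprime degree are stable -/
theorem mk_stab [ConnectedSpace C] {d : ℤ} {q : Fm B ℝ} {c : ℝ} (P : Pl B y s k) (T : Tw B k q)
    (H : Hig B k g θ) (M : B.MtM ∞ g h) (E : HE B q θ h c) (hd : B.degM g = d) (hl : B.deg l = d)
    (cop : IsCoprime (n : ℤ) d) (fr : P275KR.FRM B) : Stab B l (mk B y s j g θ U) := by
  intro r S r0 r1 hS hI
  have off' : ∀ i, ∀ w ∈ off B y i, ∀ (t : ℂ → Mr n r) v, FrAt (S i) t w →
      θ i w *ᵥ (t w *ᵥ v) ∈ S i w := fun i w a t v ht => by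
    have := hI i w a _ (an_mulVec ht.an (analyticAt_const (v := v)))
      (ht.rg.mono fun y e => e ▸ LinearMap.mem_range_self (t y).mulVecLin v)
    simpa only [mk, zero_smul, zero_add, smul_mulVec,
      Submodule.smul_mem_iff _ (inv_ne_zero (P.ne a))] using this
  have inv : Inv B θ S := fun i w a v hv => by
    obtain ⟨t, ht⟩ := hS.fr i w a
    rw [← ht.rg.self_of_nhds] at hv
    obtain ⟨u, rfl⟩ := hv
    refine P275KR.fr_mem ht (u := fun x => θ i x *ᵥ (t x *ᵥ u)) (an_mulVec (H.hol.an a i)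
      (an_mulVec ht.an analyticAt_const)).continuousAt ?_
    filter_upwards [off_ev' a y, nhdsWithin_le_nhds (P275KR.fr_ev ht)] with x b c
    exact off' i x b t u c
  have le := (P275DG.cw B n k q g θ h c (r0.trans r1) T H M E).2 r S hS inv
  obtain ⟨m, hm⟩ := P275KR.degS_int fr H.cc hS
  refine lt_of_le_of_ne (by rw [hl, ← hd]; exact le) fun e => ?_
  change (n : ℝ) * degS B g r S = _ at e
  rw [hm, hl] at e
  have e' : (n : ℤ) * m = r * d := by exact_mod_cast e
  have := Int.le_of_dvd (by exact_mod_cast r0) (cop.dvd_of_dvd_mul_right ⟨m, e'.symm⟩)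
  omega

theorem mk_iso (P : Pl B z.x s k) (G : Good B l z) (h0 : z.lam = 0) (hΦ : B.Hl Φ)
    (ne : ∀ i, ∀ w ∈ ball (0 : ℂ) B.R, (Φ i w).det ≠ 0) (hj : z.x ∈ (B.e j).source) {c : Mn n}
    (e : (Φ j (B.e j z.x))⁻¹ * z.σ j = U * c) :
    IsoBy B z (mk B z.x s j (fc B Φ z.g) (fe B Φ (tw B s z)) U) (fun i w => (Φ i w)⁻¹) c where
  lam := h0.symm
  x := rfl
  hol i w a := (an_inv (hΦ.an a i) (ne i w a)).differentiableAt.differentiableWithinAt
  law i i' w a := (mul_nonsing_inv_cancel_right _ _ (ne i' _ (tr_ball a)).isUnit).symm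
  con i w a := by
    simp only [mk, h0, zero_smul, zero_add, fe, tw_off a, Matrix.smul_mul, Matrix.mul_smul,
      inv_smul_smul₀ (P.ne a), mul_nonsing_inv_cancel_right _ _ (ne i w a.1).isUnit]
  det i w a := by
    rw [det_nonsing_inv, Ring.inverse_eq_inv]
    exact inv_ne_zero (ne i w a)
  fr i a := by
    show _ = (Φ i (B.e i z.x))⁻¹ * z.g i j (B.e i z.x) * Φ j (B.tr i j (B.e i z.x)) * U * c
    rw [Matrix.mul_assoc, ← e, tr_e a, G.frc i j a hj]
    simp only [Matrix.mul_assoc, mul_nonsing_inv_cancel_left _ _ (ne j _ (map_src hj)).isUnit]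

end Vale.Agent.P275HN
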